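import Vale.Agent.P146.H347.Mod6
import Vale.Agent.P146.H615.Easm

/-!
Plain and weighted first moments against the second moments of the spins, at one frozen set `K`.

For a fixed `z`: `CC = ∑_{i,j ∈ S} (cx K ⟨σ_iσ_j⟩)²`, `m_i = cx K ⟨σ_i⟩`, `M_i = cx K ⟨a σ_i⟩`,
`a = al η`, `|a - 1| ≤ η`.

* `diff_le` : `∑_S (M_i - m_i)² ≤ η² √CC`.
* `abs_MM_sub` : `|∑ M² - ∑ m²| ≤ η (2 + η) √CC`.
* `cc_le`, `cc_ge` : `CC` against `(∑ m²)²` with the error `∑ (cx ⟨σ_iσ_j⟩ - m_i m_j)²`.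
* `cc_le_q`, `cc_ge_q` : `ex CC` against `ex (∑ M²)²`.
-/

open MeasureTheory ProbabilityTheory

namespace Vale.Agent.P146.H762

open Vale.Agent.P157.Lv hiding Dep
open Vale.Agent.P146.H196 Vale.Agent.P146.H646 Vale.Agent.P146.H475 Vale.Agent.P146.H347
  Vale.Agent.P146.H816 Vale.Agent.P146.H325

set_option linter.unusedSectionVars false

/-! ### numbers -/

lemma sq_up {θ a b : ℝ} (hθ : 0 < θ) : a ^ 2 ≤ (1 + θ) * b ^ 2 + (1 + 1 / θ) * (a - b) ^ 2 := by
  have h : (1 + θ) * b ^ 2 + (1 + 1 / θ) * (a - b) ^ 2 - a ^ 2 = (θ * b - (a - b)) ^ 2 / θ := by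
    field_simp
    ring
  have : 0 ≤ (θ * b - (a - b)) ^ 2 / θ := by positivity
  linarith

lemma sq_dn {θ a b : ℝ} (hθ : 0 < θ) : (1 - θ) * b ^ 2 - 1 / θ * (a - b) ^ 2 ≤ a ^ 2 := by
  have h : a ^ 2 - ((1 - θ) * b ^ 2 - 1 / θ * (a - b) ^ 2) =
      (θ * b + (a - b)) ^ 2 / θ + (a - b) ^ 2 := by
    field_simp
    ring
  have : 0 ≤ (θ * b + (a - b)) ^ 2 / θ + (a - b) ^ 2 := by positivity
  linarith

/-! ### pointwise -/

section sk

variable {n : ℕ} {LB LF : Type} [Fintype LB] [DecidableEq LB] [Fintype LF] [DecidableEq LF]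
variable (b : ℝ) (cB : LB → ℝ) (cF : LF → ℝ) (s : ℝ) {η lam : ℝ}

/-- `E[⟨h⟩ | K]` -/
noncomputable abbrev cm (b : ℝ) (cB : LB → ℝ) (cF : LF → ℝ) (s η lam c x : ℝ)
    (K : Finset (Co n LB LF)) (h : ℝ × Xs n → ℝ) (z : Co n LB LF → ℝ) : ℝ :=
  cx (g1 _) K (Zxm (muA (Xs n) lam η c) 1 (Sm b cB cF s η) x)
    (avm (muA (Xs n) lam η c) 1 (Sm b cB cF s η) h) z

/-- the mean -/
noncomputable abbrev em (b : ℝ) (cB : LB → ℝ) (cF : LF → ℝ) (s η lam c x : ℝ)
    (Ψ : (Co n LB LF → ℝ) → ℝ) : ℝ :=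
  ex (g1 _) (Zxm (muA (Xs n) lam η c) 1 (Sm b cB cF s η) x) Ψ

/-- `∑_{i,j ∈ S} E[⟨σ_iσ_j⟩ | K]²` -/
noncomputable def cc (b : ℝ) (cB : LB → ℝ) (cF : LF → ℝ) (s η lam c x : ℝ)
    (K : Finset (Co n LB LF)) (S : Finset (Fin n)) (z : Co n LB LF → ℝ) : ℝ :=
  ∑ i ∈ S, ∑ j ∈ S, cm b cB cF s η lam c x K (fun w => sp w.2 i * sp w.2 j) z ^ 2

/-- `∑_{i ∈ S} E[⟨σ_i⟩ | K]²` -/
noncomputable def mm (b : ℝ) (cB : LB → ℝ) (cF : LF → ℝ) (s η lam c x : ℝ)
    (K : Finset (Co n LB LF)) (S : Finset (Fin n)) (z : Co n LB LF → ℝ) : ℝ :=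
  ∑ i ∈ S, cm b cB cF s η lam c x K (fun w => sp w.2 i) z ^ 2

/-- `∑_{i ∈ S} E[⟨a σ_i⟩ | K]²` -/
noncomputable def ma (b : ℝ) (cB : LB → ℝ) (cF : LF → ℝ) (s η lam c x : ℝ)
    (K : Finset (Co n LB LF)) (S : Finset (Fin n)) (z : Co n LB LF → ℝ) : ℝ :=
  ∑ i ∈ S, cm b cB cF s η lam c x K (fun w => al η w.1 * sp w.2 i) z ^ 2

/-- `∑_{i,j ∈ S} (E[⟨σ_iσ_j⟩ | K] - E[⟨σ_i⟩ | K] E[⟨σ_j⟩ | K])²` -/
noncomputable def rkn (b : ℝ) (cB : LB → ℝ) (cF : LF → ℝ) (s η lam c x : ℝ)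
    (K : Finset (Co n LB LF)) (S : Finset (Fin n)) (z : Co n LB LF → ℝ) : ℝ :=
  ∑ i ∈ S, ∑ j ∈ S, (cm b cB cF s η lam c x K (fun w => sp w.2 i * sp w.2 j) z -
    cm b cB cF s η lam c x K (fun w => sp w.2 i) z *
    cm b cB cF s η lam c x K (fun w => sp w.2 j) z) ^ 2

variable (hl : 0 < lam) (hη : 0 ≤ η) (c x : ℝ) (K : Finset (Co n LB LF))
  (S : Finset (Fin n))

section nonneg
omit hl hη
variable (z : Co n LB LF → ℝ)

lemma cc_nonneg : 0 ≤ cc b cB cF s η lam c x K S z :=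
  Finset.sum_nonneg fun _ _ => Finset.sum_nonneg fun _ _ => sq_nonneg _

lemma mm_nonneg : 0 ≤ mm b cB cF s η lam c x K S z := Finset.sum_nonneg fun _ _ => sq_nonneg _

lemma ma_nonneg : 0 ≤ ma b cB cF s η lam c x K S z := Finset.sum_nonneg fun _ _ => sq_nonneg _

lemma rkn_nonneg : 0 ≤ rkn b cB cF s η lam c x K S z :=
  Finset.sum_nonneg fun _ _ => Finset.sum_nonneg fun _ _ => sq_nonneg _

end nonneg

/-- the second moments against the first moments -/
lemma cc_le_mm {θ : ℝ} (hθ : 0 < θ) (z : Co n LB LF → ℝ) :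
    cc b cB cF s η lam c x K S z ≤
      (1 + θ) * mm b cB cF s η lam c x K S z ^ 2 +
        (1 + 1 / θ) * rkn b cB cF s η lam c x K S z := by
  unfold cc mm rkn
  rw [sq, Finset.sum_mul_sum, Finset.mul_sum, Finset.mul_sum, ← Finset.sum_add_distrib]
  refine Finset.sum_le_sum fun i _ => ?_
  rw [Finset.mul_sum, Finset.mul_sum, ← Finset.sum_add_distrib]
  refine Finset.sum_le_sum fun j _ => ?_
  have h := sq_up (a := cm b cB cF s η lam c x K (fun w => sp w.2 i * sp w.2 j) z)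
    (b := cm b cB cF s η lam c x K (fun w => sp w.2 i) z *
      cm b cB cF s η lam c x K (fun w => sp w.2 j) z) hθ
  rw [mul_pow] at h
  exact h

lemma mm_le_cc {θ : ℝ} (hθ : 0 < θ) (z : Co n LB LF → ℝ) :
    (1 - θ) * mm b cB cF s η lam c x K S z ^ 2 - 1 / θ * rkn b cB cF s η lam c x K S z ≤
      cc b cB cF s η lam c x K S z := by
  unfold cc mm rkn
  rw [sq, Finset.sum_mul_sum, Finset.mul_sum, Finset.mul_sum, ← Finset.sum_sub_distrib]
  refine Finset.sum_le_sum fun i _ => ?_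
  rw [Finset.mul_sum, Finset.mul_sum, ← Finset.sum_sub_distrib]
  refine Finset.sum_le_sum fun j _ => ?_
  have h := sq_dn (a := cm b cB cF s η lam c x K (fun w => sp w.2 i * sp w.2 j) z)
    (b := cm b cB cF s η lam c x K (fun w => sp w.2 i) z *
      cm b cB cF s η lam c x K (fun w => sp w.2 j) z) hθ
  rw [mul_pow] at h
  exact h

include hl hη

/-- the difference of the weighted and plain means -/
lemma cm_sub (i : Fin n) (e : ℝ) (z : Co n LB LF → ℝ) :
    cm b cB cF s η lam c x K (fun w => al η w.1 * sp w.2 i) z +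
      e * cm b cB cF s η lam c x K (fun w => sp w.2 i) z =
    cm b cB cF s η lam c x K (fun w => (al η w.1 + e) * sp w.2 i) z := by
  have := dmx n
  have hG := gmA (n := n) b cB cF s hl hη c
  have hw := wtA (n := n) b cB cF s hl hη c x
  have b1 : Bm fun w : ℝ × Xs n => al η w.1 * sp w.2 i := (bm_of_al (n := n) hη).mul (bm_sp i)
  have b2 : Bm fun w : ℝ × Xs n => e * sp w.2 i := (bm_sp i).const_mul e
  have e1 : (fun w : ℝ × Xs n => (al η w.1 + e) * sp w.2 i) =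
      fun w => al η w.1 * sp w.2 i + e * sp w.2 i := by funext w; ring
  have e2 : avm (muA (Xs n) lam η c) 1 (Sm b cB cF s η)
      (fun w : ℝ × Xs n => (al η w.1 + e) * sp w.2 i) =
      fun z => avm (muA (Xs n) lam η c) 1 (Sm b cB cF s η) (fun w => al η w.1 * sp w.2 i) z +
        e * avm (muA (Xs n) lam η c) 1 (Sm b cB cF s η) (fun w => sp w.2 i) z := by
    funext u
    rw [e1, hG.av_add 1 b1 b2, H196.av_mul]
  show cx _ _ _ _ _ + e * cx _ _ _ _ _ = cx _ _ _ _ _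
  rw [e2, H646.cx_add hw (bm hG 1 b1) ((BM.const e).mul (bm hG 1 (bm_sp i))),
    H646.cx_const_mul hw]

/-- `∑ M² - ∑ m²` -/
theorem abs_MM_sub (z : Co n LB LF → ℝ) :
    |ma b cB cF s η lam c x K S z - mm b cB cF s η lam c x K S z| ≤
      η * (2 + η) * √(cc b cB cF s η lam c x K S z) := by
  have h1 := amp_sq_le b cB cF s hl hη c x K S (h := fun w => al η w.1 + -1) (C := η)
    ((bm_of_al (n := n) hη).add (Bm.const (-1))) (fun w => by
      have := abs_al_sub hη w.1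
      rwa [sub_eq_add_neg] at this) hη z
  have h2 := amp_sq_le b cB cF s hl hη c x K S (h := fun w => al η w.1 + 1) (C := 2 + η)
    ((bm_of_al (n := n) hη).add (Bm.const 1)) (fun w => by
      have h3 := al_mem hη w.1
      rw [abs_le]
      constructor <;> linarith [h3.1, h3.2]) (by linarith) z
  have e0 : mo S 2 (rA b cB cF s η lam c x K z) = cc b cB cF s η lam c x K S z :=
    (mo_two_cx b cB cF s hl hη c x K S z).symm
  rw [e0] at h1 h2
  set C := √(cc b cB cF s η lam c x K S z) with hC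
  have hC0 : 0 ≤ C := Real.sqrt_nonneg _
  have h4 : ma b cB cF s η lam c x K S z - mm b cB cF s η lam c x K S z =
      ∑ i ∈ S, cm b cB cF s η lam c x K (fun w => (al η w.1 + -1) * sp w.2 i) z *
        cm b cB cF s η lam c x K (fun w => (al η w.1 + 1) * sp w.2 i) z := by
    unfold ma mm
    rw [← Finset.sum_sub_distrib]
    refine Finset.sum_congr rfl fun i _ => ?_
    rw [← cm_sub b cB cF s hl hη c x K i (-1) z, ← cm_sub b cB cF s hl hη c x K i 1 z]
    ring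
  have h5 := Finset.sum_mul_sq_le_sq_mul_sq S
    (fun i => cm b cB cF s η lam c x K (fun w => (al η w.1 + -1) * sp w.2 i) z)
    (fun i => cm b cB cF s η lam c x K (fun w => (al η w.1 + 1) * sp w.2 i) z)
  rw [h4]
  refine abs_le_of_sq_le_sq ?_ (mul_nonneg (mul_nonneg hη (by linarith)) hC0)
  refine h5.trans ?_
  refine (mul_le_mul h1 h2 (Finset.sum_nonneg fun _ _ => sq_nonneg _)
    (mul_nonneg (sq_nonneg η) hC0)).trans (le_of_eq ?_)
  ring

/-- `∑_S (M_i - m_i)² ≤ η² √CC` -/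
theorem diff_le (z : Co n LB LF → ℝ) :
    ∑ i ∈ S, (cm b cB cF s η lam c x K (fun w => al η w.1 * sp w.2 i) z -
      cm b cB cF s η lam c x K (fun w => sp w.2 i) z) ^ 2 ≤
      η ^ 2 * √(cc b cB cF s η lam c x K S z) := by
  have h1 := amp_sq_le b cB cF s hl hη c x K S (h := fun w => al η w.1 + -1) (C := η)
    ((bm_of_al (n := n) hη).add (Bm.const (-1))) (fun w => by
      have := abs_al_sub hη w.1
      rwa [sub_eq_add_neg] at this) hη z
  have e0 : mo S 2 (rA b cB cF s η lam c x K z) = cc b cB cF s η lam c x K S z :=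
    (mo_two_cx b cB cF s hl hη c x K S z).symm
  rw [e0] at h1
  refine le_trans (Finset.sum_le_sum fun i _ => le_of_eq ?_) h1
  have h2 := cm_sub b cB cF s hl hη c x K i (-1) z
  show _ = cm b cB cF s η lam c x K (fun w => (al η w.1 + -1) * sp w.2 i) z ^ 2
  rw [← h2]
  ring

/-- `(∑ m²)² ≤ (1 + θ) (∑ M²)² + (1 + 1/θ) η² (2 + η)² CC` -/
lemma mm_sq_le {θ : ℝ} (hθ : 0 < θ) (z : Co n LB LF → ℝ) :
    mm b cB cF s η lam c x K S z ^ 2 ≤ (1 + θ) * ma b cB cF s η lam c x K S z ^ 2 +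
      (1 + 1 / θ) * (η * (2 + η)) ^ 2 * cc b cB cF s η lam c x K S z := by
  have h1 := abs_MM_sub b cB cF s hl hη c x K S z
  have h2 := sq_up (a := mm b cB cF s η lam c x K S z) (b := ma b cB cF s η lam c x K S z) hθ
  have h3 : (mm b cB cF s η lam c x K S z - ma b cB cF s η lam c x K S z) ^ 2 ≤
      (η * (2 + η)) ^ 2 * cc b cB cF s η lam c x K S z := by
    have h4 := pow_le_pow_left₀ (abs_nonneg _) h1 2
    rw [sq_abs, mul_pow, Real.sq_sqrt (cc_nonneg b cB cF s c x K S z)] at h4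
    calc _ = (ma b cB cF s η lam c x K S z - mm b cB cF s η lam c x K S z) ^ 2 := by ring
      _ ≤ _ := h4
  have h5 : 0 ≤ 1 + 1 / θ := by positivity
  nlinarith [mul_le_mul_of_nonneg_left h3 h5]

/-- `(∑ m²)² ≥ (1 - θ) (∑ M²)² - (1/θ) η² (2 + η)² CC` -/
lemma mm_sq_ge {θ : ℝ} (hθ : 0 < θ) (z : Co n LB LF → ℝ) :
    (1 - θ) * ma b cB cF s η lam c x K S z ^ 2 -
      1 / θ * (η * (2 + η)) ^ 2 * cc b cB cF s η lam c x K S z ≤
      mm b cB cF s η lam c x K S z ^ 2 := by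
  have h1 := abs_MM_sub b cB cF s hl hη c x K S z
  have h2 := sq_dn (a := mm b cB cF s η lam c x K S z) (b := ma b cB cF s η lam c x K S z) hθ
  have h3 : (mm b cB cF s η lam c x K S z - ma b cB cF s η lam c x K S z) ^ 2 ≤
      (η * (2 + η)) ^ 2 * cc b cB cF s η lam c x K S z := by
    have h4 := pow_le_pow_left₀ (abs_nonneg _) h1 2
    rw [sq_abs, mul_pow, Real.sq_sqrt (cc_nonneg b cB cF s c x K S z)] at h4
    calc _ = (ma b cB cF s η lam c x K S z - mm b cB cF s η lam c x K S z) ^ 2 := by ring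
      _ ≤ _ := h4
  have h5 : 0 ≤ 1 / θ := by positivity
  nlinarith [mul_le_mul_of_nonneg_left h3 h5]

/-! ### means -/

lemma bm_cm {h : ℝ × Xs n → ℝ} (hh : Bm h) : BM (cm b cB cF s η lam c x K h) := by
  have := dmx n
  exact (wtA (n := n) b cB cF s hl hη c x).bm_cx K (bm (gmA (n := n) b cB cF s hl hη c) 1 hh)

lemma bm_spsp (i j : Fin n) : Bm fun w : ℝ × Xs n => sp w.2 i * sp w.2 j := (bm_sp i).mul (bm_sp j)

lemma bm_cc : BM (cc b cB cF s η lam c x K S) :=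
  BM.sum S fun i _ => BM.sum S fun j _ =>
    H615.bsq (bm_cm b cB cF s hl hη c x K ((bm_sp i).mul (bm_sp j)))

lemma bm_mm : BM (mm b cB cF s η lam c x K S) :=
  BM.sum S fun i _ => H615.bsq (bm_cm b cB cF s hl hη c x K (bm_sp i))

lemma bm_ma : BM (ma b cB cF s η lam c x K S) :=
  BM.sum S fun i _ => H615.bsq (bm_cm b cB cF s hl hη c x K
    ((bm_of_al (n := n) hη).mul (bm_sp i)))

lemma bm_rkn : BM (rkn b cB cF s η lam c x K S) :=
  BM.sum S fun i _ => BM.sum S fun j _ =>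
    H615.bsq ((bm_cm b cB cF s hl hη c x K ((bm_sp i).mul (bm_sp j))).sub
      ((bm_cm b cB cF s hl hη c x K (bm_sp i)).mul (bm_cm b cB cF s hl hη c x K (bm_sp j))))

/-- `ex (∑ m²)² ≤ (1 + θ) ex (∑ M²)² + (1 + 1/θ) η² (2 + η)² ex CC` -/
theorem em_mm_le {θ : ℝ} (hθ : 0 < θ) :
    em b cB cF s η lam c x (fun z => mm b cB cF s η lam c x K S z ^ 2) ≤
      (1 + θ) * em b cB cF s η lam c x (fun z => ma b cB cF s η lam c x K S z ^ 2) +
      (1 + 1 / θ) * (η * (2 + η)) ^ 2 * em b cB cF s η lam c x (cc b cB cF s η lam c x K S) := by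
  have hw := wtA (n := n) b cB cF s hl hη c x
  have b1 := bm_cc b cB cF s hl hη c x K S
  have b2 := H615.bsq (bm_mm b cB cF s hl hη c x K S)
  have b3 := H615.bsq (bm_ma b cB cF s hl hη c x K S)
  rw [← H615.ex_cmul, ← H615.ex_cmul, ← H615.ex_add hw (H615.bcm _ b3) (H615.bcm _ b1)]
  exact H615.ex_mono hw b2 ((H615.bcm _ b3).add (H615.bcm _ b1)) fun z =>
    mm_sq_le b cB cF s hl hη c x K S hθ z

/-- `(1 - θ) ex (∑ M²)² - (1/θ) η² (2 + η)² ex CC ≤ ex (∑ m²)²` -/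
theorem em_mm_ge {θ : ℝ} (hθ : 0 < θ) :
    (1 - θ) * em b cB cF s η lam c x (fun z => ma b cB cF s η lam c x K S z ^ 2) -
      1 / θ * (η * (2 + η)) ^ 2 * em b cB cF s η lam c x (cc b cB cF s η lam c x K S) ≤
      em b cB cF s η lam c x (fun z => mm b cB cF s η lam c x K S z ^ 2) := by
  have hw := wtA (n := n) b cB cF s hl hη c x
  have b1 := bm_cc b cB cF s hl hη c x K S
  have b2 := H615.bsq (bm_mm b cB cF s hl hη c x K S)
  have b3 := H615.bsq (bm_ma b cB cF s hl hη c x K S)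
  rw [← H615.ex_cmul, ← H615.ex_cmul, ← H615.ex_sub hw (H615.bcm _ b3) (H615.bcm _ b1)]
  exact H615.ex_mono hw ((H615.bcm _ b3).sub (H615.bcm _ b1)) b2 fun z =>
    mm_sq_ge b cB cF s hl hη c x K S hθ z

/-- `ex CC ≤ (1 + θ) ex (∑ m²)² + (1 + 1/θ) ex rk` -/
theorem em_cc_le_mm {θ : ℝ} (hθ : 0 < θ) :
    em b cB cF s η lam c x (cc b cB cF s η lam c x K S) ≤
      (1 + θ) * em b cB cF s η lam c x (fun z => mm b cB cF s η lam c x K S z ^ 2) +
      (1 + 1 / θ) * em b cB cF s η lam c x (rkn b cB cF s η lam c x K S) := by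
  have hw := wtA (n := n) b cB cF s hl hη c x
  have b1 := bm_cc b cB cF s hl hη c x K S
  have b2 := H615.bsq (bm_mm b cB cF s hl hη c x K S)
  have b3 := bm_rkn b cB cF s hl hη c x K S
  rw [← H615.ex_cmul, ← H615.ex_cmul, ← H615.ex_add hw (H615.bcm _ b2) (H615.bcm _ b3)]
  exact H615.ex_mono hw b1 ((H615.bcm _ b2).add (H615.bcm _ b3)) fun z =>
    cc_le_mm b cB cF s c x K S hθ z

/-- `(1 - θ) ex (∑ m²)² - (1/θ) ex rk ≤ ex CC` -/
theorem em_cc_ge_mm {θ : ℝ} (hθ : 0 < θ) :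
    (1 - θ) * em b cB cF s η lam c x (fun z => mm b cB cF s η lam c x K S z ^ 2) -
      1 / θ * em b cB cF s η lam c x (rkn b cB cF s η lam c x K S) ≤
      em b cB cF s η lam c x (cc b cB cF s η lam c x K S) := by
  have hw := wtA (n := n) b cB cF s hl hη c x
  have b1 := bm_cc b cB cF s hl hη c x K S
  have b2 := H615.bsq (bm_mm b cB cF s hl hη c x K S)
  have b3 := bm_rkn b cB cF s hl hη c x K S
  rw [← H615.ex_cmul, ← H615.ex_cmul, ← H615.ex_sub hw (H615.bcm _ b2) (H615.bcm _ b3)]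
  exact H615.ex_mono hw ((H615.bcm _ b2).sub (H615.bcm _ b3)) b1 fun z =>
    mm_le_cc b cB cF s c x K S hθ z

/-- **the second moments against the weighted first moments, from above** -/
theorem em_cc_le {θ : ℝ} (hθ : 0 < θ) :
    em b cB cF s η lam c x (cc b cB cF s η lam c x K S) ≤
      (1 + θ) ^ 2 * em b cB cF s η lam c x (fun z => ma b cB cF s η lam c x K S z ^ 2) +
      (1 + θ) * (1 + 1 / θ) * (η * (2 + η)) ^ 2 *
        em b cB cF s η lam c x (cc b cB cF s η lam c x K S) +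
      (1 + 1 / θ) * em b cB cF s η lam c x (rkn b cB cF s η lam c x K S) := by
  have h1 := em_cc_le_mm b cB cF s hl hη c x K S hθ
  have h2 := em_mm_le b cB cF s hl hη c x K S hθ
  have h3 := mul_le_mul_of_nonneg_left h2 (by positivity : (0 : ℝ) ≤ 1 + θ)
  nlinarith

/-- **the second moments against the weighted first moments, from below** -/
theorem em_cc_ge {θ : ℝ} (hθ : 0 < θ) (hθ1 : θ ≤ 1) :
    (1 - θ) ^ 2 * em b cB cF s η lam c x (fun z => ma b cB cF s η lam c x K S z ^ 2) -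
      1 / θ * (η * (2 + η)) ^ 2 * em b cB cF s η lam c x (cc b cB cF s η lam c x K S) -
      1 / θ * em b cB cF s η lam c x (rkn b cB cF s η lam c x K S) ≤
      em b cB cF s η lam c x (cc b cB cF s η lam c x K S) := by
  have hw := wtA (n := n) b cB cF s hl hη c x
  have h1 := em_cc_ge_mm b cB cF s hl hη c x K S hθ
  have h2 := em_mm_ge b cB cF s hl hη c x K S hθ
  have h3 := mul_le_mul_of_nonneg_left h2 (by linarith : (0 : ℝ) ≤ 1 - θ)
  have h4 : 0 ≤ em b cB cF s η lam c x (cc b cB cF s η lam c x K S) :=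
    H615.ex_nonneg hw fun z => cc_nonneg b cB cF s c x K S z
  have h5 : 0 ≤ 1 / θ * (η * (2 + η)) ^ 2 *
      em b cB cF s η lam c x (cc b cB cF s η lam c x K S) := by positivity
  have h6 : (1 - θ) * (1 / θ * (η * (2 + η)) ^ 2 *
      em b cB cF s η lam c x (cc b cB cF s η lam c x K S)) ≤ 1 / θ * (η * (2 + η)) ^ 2 *
      em b cB cF s η lam c x (cc b cB cF s η lam c x K S) := by nlinarith
  nlinarith

end sk

end Vale.Agent.P146.H762
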