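import Vale.Agent.P146.H762.OneSidedA
import Vale.Agent.P146.H655.Low
import Vale.Agent.P146.H863.GumLC

set_option linter.all false

/-!
# P146: all the one-sided moments of the free energy

If `F_n` lies with probability `≥ n ^ (-ε)` more than `n ^ (q - ε)` below its mean, the same above
the mean, and if `Var F_n ≤ n ^ (2 q + ε)`, then `E (F_n - E F_n)_±^p = n ^ (p q + o(1))` for every
real `p > 0`.
-/

open MeasureTheory ProbabilityTheory Set Filter Topology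

namespace Vale.Agent.P146.H762

open Vale.Agent.P146.H605

lemma mom_num {n q p ε σ : ℝ} (hn : 1 ≤ n) (hq : 0 ≤ q) (hp : 0 < p) (hσ0 : 0 ≤ σ)
    (hσ : σ ≤ n ^ (2 * q + ε / p)) (hc : 7 * p ^ p * 36 ^ p ≤ n ^ (ε / 2)) (hε : 0 < ε) :
    7 * p ^ p * (18 * (1 + √σ)) ^ p ≤ n ^ (p * q + ε) := by
  have hn0 : 0 < n := by linarith
  have h1 : √σ ≤ n ^ (q + ε / (2 * p)) := by
    have h2 : n ^ (q + ε / (2 * p)) = √(n ^ (2 * q + ε / p)) := by
      rw [Real.sqrt_eq_rpow, ← Real.rpow_mul hn0.le]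
      congr 1
      field_simp
    rw [h2]
    exact Real.sqrt_le_sqrt hσ
  have h3 : 1 ≤ n ^ (q + ε / (2 * p)) := Real.one_le_rpow hn (by positivity)
  have h4 : (18 * (1 + √σ)) ^ p ≤ (36 * n ^ (q + ε / (2 * p))) ^ p :=
    Real.rpow_le_rpow (by positivity) (by linarith) hp.le
  have h5 : (36 * n ^ (q + ε / (2 * p))) ^ p = 36 ^ p * n ^ (p * q + ε / 2) := by
    rw [Real.mul_rpow (by norm_num) (by positivity), ← Real.rpow_mul hn0.le]
    congr 2
    field_simp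
  have h6 : 0 ≤ 7 * p ^ p := by positivity
  calc 7 * p ^ p * (18 * (1 + √σ)) ^ p ≤ 7 * p ^ p * (36 ^ p * n ^ (p * q + ε / 2)) := by
        rw [← h5]
        exact mul_le_mul_of_nonneg_left h4 h6
    _ = 7 * p ^ p * 36 ^ p * n ^ (p * q + ε / 2) := by ring
    _ ≤ n ^ (ε / 2) * n ^ (p * q + ε / 2) := mul_le_mul_of_nonneg_right hc (by positivity)
    _ = n ^ (p * q + ε) := by
        rw [← Real.rpow_add hn0]
        congr 1
        ring

/-- **All one-sided moments have the exponent of the typical size.** -/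
theorem one_sided {β q : ℝ} (hq0 : 0 < q)
    (hS : ∀ ε : ℝ, 0 < ε → ∀ᶠ n : ℕ in atTop,
      (n : ℝ) ^ (-ε) ≤ (disorder n).real {g |
        freeEnergy n β g ≤ ∫ h, freeEnergy n β h ∂(disorder n) - (n : ℝ) ^ (q - ε)} ∧
      (n : ℝ) ^ (-ε) ≤ (disorder n).real {g |
        ∫ h, freeEnergy n β h ∂(disorder n) + (n : ℝ) ^ (q - ε) ≤ freeEnergy n β g})
    (hU : ∀ ε : ℝ, 0 < ε → ∀ᶠ n : ℕ in atTop,
      Var[freeEnergy n β; disorder n] ≤ (n : ℝ) ^ (2 * q + ε)) :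
    ∀ p : ℝ, 0 < p → ∀ ε : ℝ, 0 < ε → ∀ᶠ n : ℕ in atTop,
      (n : ℝ) ^ (p * q - ε) ≤ ∫ g, (max (freeEnergy n β g -
          ∫ h, freeEnergy n β h ∂(disorder n)) 0) ^ p ∂(disorder n) ∧
      ∫ g, (max (freeEnergy n β g - ∫ h, freeEnergy n β h ∂(disorder n)) 0) ^ p ∂(disorder n) ≤
        (n : ℝ) ^ (p * q + ε) ∧
      (n : ℝ) ^ (p * q - ε) ≤ ∫ g, (max (∫ h, freeEnergy n β h ∂(disorder n) -
          freeEnergy n β g) 0) ^ p ∂(disorder n) ∧
      ∫ g, (max (∫ h, freeEnergy n β h ∂(disorder n) - freeEnergy n β g) 0) ^ p ∂(disorder n) ≤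
        (n : ℝ) ^ (p * q + ε) := by
  intro p hp ε hε
  have t2 : Tendsto (fun n : ℕ => (n : ℝ) ^ (ε / 2)) atTop atTop :=
    (tendsto_rpow_atTop (by positivity)).comp tendsto_natCast_atTop_atTop
  filter_upwards [hS (ε / (p + 1)) (by positivity), hU (ε / p) (by positivity),
    t2.eventually_ge_atTop (7 * p ^ p * 36 ^ p), eventually_ge_atTop 1] with n g1 g2 g3 g4
  have hn1 : (1 : ℝ) ≤ n := by exact_mod_cast g4
  have hn0 : (0 : ℝ) < n := by linarith
  obtain ⟨m, hm⟩ : ∃ m, m = ∫ h, freeEnergy n β h ∂(disorder n) := ⟨_, rfl⟩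
  rw [← hm] at g1 ⊢
  obtain ⟨x, hx⟩ : ∃ x, x = (18 * (1 + √Var[freeEnergy n β; disorder n]))⁻¹ := ⟨_, rfl⟩
  have hs0 : 0 < 18 * (1 + √Var[freeEnergy n β; disorder n]) := by positivity
  have hx0 : 0 < x := by rw [hx]; positivity
  have hxi : x⁻¹ = 18 * (1 + √Var[freeEnergy n β; disorder n]) := by rw [hx, inv_inv]
  have hx1 : x * (18 * (1 + √Var[freeEnergy n β; disorder n])) ≤ 1 := by
    rw [hx, inv_mul_cancel₀ hs0.ne']
  obtain ⟨i1, b1⟩ := H641.exp_moment n β hx0.le (show x * (18 * H641.sd1 n β) ≤ 1 from hx1)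
  obtain ⟨i2, b2⟩ := H655.exp_moment_neg n β hx0.le hx1
  rw [← hm] at i2 b2
  have i1' : Integrable (fun g => Real.exp (x * (freeEnergy n β g - m))) (disorder n) := by
    rw [hm]
    exact i1
  have b1' : ∫ g, Real.exp (x * (freeEnergy n β g - m)) ∂(disorder n) ≤ 7 / 2 := by
    rw [hm]
    exact b1
  have e2 : ∀ g, Real.exp (x * (m - freeEnergy n β g)) =
      Real.exp (-(x * (freeEnergy n β g - m))) := fun g => by
    congr 1
    ring
  have i2' : Integrable (fun g => Real.exp (x * (m - freeEnergy n β g))) (disorder n) := by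
    simp only [e2]
    exact i2
  have b2' : ∫ g, Real.exp (x * (m - freeEnergy n β g)) ∂(disorder n) ≤ 7 / 2 := by
    simp only [e2]
    exact b2
  have hM : Measurable (freeEnergy n β) := (H863.cont_freeEnergy n β).measurable
  have hY : Measurable fun g => freeEnergy n β g - m := hM.sub_const m
  have hZ : Measurable fun g => m - freeEnergy n β g := hM.const_sub m
  have hnum := mom_num hn1 hq0.le hp (variance_nonneg _ _) g2 g3 hε
  have hr : (7 / 2 + 1) * p ^ p * x⁻¹ ^ p ≤ (n : ℝ) ^ (p * q + ε) := by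
    have h3 : 0 ≤ p ^ p * x⁻¹ ^ p :=
      mul_nonneg (Real.rpow_nonneg hp.le _) (Real.rpow_nonneg (inv_pos.2 hx0).le _)
    rw [← hxi] at hnum
    nlinarith
  have hlow : (n : ℝ) ^ (p * q - ε) =
      ((n : ℝ) ^ (q - ε / (p + 1))) ^ p * (n : ℝ) ^ (-(ε / (p + 1))) := by
    rw [← Real.rpow_mul hn0.le, ← Real.rpow_add hn0]
    congr 1
    field_simp
    ring
  have ha : 0 < (n : ℝ) ^ (q - ε / (p + 1)) := by positivity
  have hap : 0 ≤ ((n : ℝ) ^ (q - ε / (p + 1))) ^ p := by positivity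
  obtain ⟨I1, U1⟩ := pos_upper (μ := disorder n) hY hx0 hp i1' b1'
  obtain ⟨I2, U2⟩ := pos_upper (μ := disorder n) hZ hx0 hp i2' b2'
  have L1 := pos_lower (μ := disorder n) hY ha hp I1
  have L2 := pos_lower (μ := disorder n) hZ ha hp I2
  refine ⟨?_, U1.trans hr, ?_, U2.trans hr⟩
  · rw [hlow]
    refine (mul_le_mul_of_nonneg_left (g1.2.trans (measureReal_mono fun g hg => ?_)) hap).trans L1
    simp only [mem_setOf_eq] at hg ⊢
    linarith
  · rw [hlow]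
    refine (mul_le_mul_of_nonneg_left (g1.1.trans (measureReal_mono fun g hg => ?_)) hap).trans L2
    simp only [mem_setOf_eq] at hg ⊢
    linarith

/-- The case `q = 1 / 6`. -/
theorem one_sided_sixth {β : ℝ}
    (hS : ∀ ε : ℝ, 0 < ε → ∀ᶠ n : ℕ in atTop,
      (n : ℝ) ^ (-ε) ≤ (disorder n).real {g |
        freeEnergy n β g ≤ ∫ h, freeEnergy n β h ∂(disorder n) - (n : ℝ) ^ (1 / 6 - ε)} ∧
      (n : ℝ) ^ (-ε) ≤ (disorder n).real {g |
        ∫ h, freeEnergy n β h ∂(disorder n) + (n : ℝ) ^ (1 / 6 - ε) ≤ freeEnergy n β g})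
    (hU : ∀ ε : ℝ, 0 < ε → ∀ᶠ n : ℕ in atTop,
      Var[freeEnergy n β; disorder n] ≤ (n : ℝ) ^ (1 / 3 + ε)) :
    ∀ p : ℝ, 0 < p → ∀ ε : ℝ, 0 < ε → ∀ᶠ n : ℕ in atTop,
      (n : ℝ) ^ (p / 6 - ε) ≤ ∫ g, (max (freeEnergy n β g -
          ∫ h, freeEnergy n β h ∂(disorder n)) 0) ^ p ∂(disorder n) ∧
      ∫ g, (max (freeEnergy n β g - ∫ h, freeEnergy n β h ∂(disorder n)) 0) ^ p ∂(disorder n) ≤
        (n : ℝ) ^ (p / 6 + ε) ∧
      (n : ℝ) ^ (p / 6 - ε) ≤ ∫ g, (max (∫ h, freeEnergy n β h ∂(disorder n) -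
          freeEnergy n β g) 0) ^ p ∂(disorder n) ∧
      ∫ g, (max (∫ h, freeEnergy n β h ∂(disorder n) - freeEnergy n β g) 0) ^ p ∂(disorder n) ≤
        (n : ℝ) ^ (p / 6 + ε) := by
  intro p hp ε hε
  have h := one_sided (q := 1 / 6) (by norm_num) hS
    (fun ε hε => by
      have e : (2 * (1 / 6) + ε : ℝ) = 1 / 3 + ε := by ring
      rw [e]
      exact hU ε hε) p hp ε hε
  have e1 : (p * (1 / 6) : ℝ) = p / 6 := by ring
  rw [e1] at h
  exact h

end Vale.Agent.P146.H762
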