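import Vale.Agent.P146.H762.SkewA

set_option linter.all false

/-!
# Passing inequalities for unbounded test functions to the limit in law
-/

open MeasureTheory ProbabilityTheory Set Filter Topology

namespace Vale.Agent.P146.H762

section lim

variable {Ω : ℕ → Type} [∀ k, MeasurableSpace (Ω k)] {P : ∀ k, Measure (Ω k)}
  [∀ k, IsProbabilityMeasure (P k)] {Y : ∀ k, Ω k → ℝ} {p : ℝ → ℝ}

/-- An upper bound of the integral of a nonnegative function passes to the limit law. -/
theorem lim_upper (hp : ∀ x, 0 ≤ p x) (hp1 : ∫ x, p x = 1)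
    (hc : ∀ f : ℝ → ℝ, Continuous f → (∃ C, ∀ x, |f x| ≤ C) →
      Tendsto (fun k => ∫ g, f (Y k g) ∂(P k)) atTop (𝓝 (∫ x, f x * p x)))
    (hY : ∀ k, Measurable (Y k)) {g : ℝ → ℝ} (hg : Continuous g) (hg0 : ∀ x, 0 ≤ g x) {B : ℝ}
    (h : ∀ᶠ k in atTop, Integrable (fun w => g (Y k w)) (P k) ∧ ∫ w, g (Y k w) ∂(P k) ≤ B) :
    Integrable (fun x => g x * p x) ∧ ∫ x, g x * p x ≤ B := by
  have hpi : Integrable p := Integrable.of_integral_ne_zero (by rw [hp1]; norm_num)
  obtain ⟨f, hf⟩ : ∃ f : ℕ → ℝ → ℝ, f = fun (j : ℕ) (x : ℝ) => min (g x) (j : ℝ) := ⟨_, rfl⟩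
  have hfc : ∀ j, Continuous (f j) := fun j => by rw [hf]; exact hg.min continuous_const
  have hf0 : ∀ j x, 0 ≤ f j x := fun j x => by
    rw [hf]; exact le_min (hg0 x) (Nat.cast_nonneg j)
  have hfb : ∀ j x, |f j x| ≤ j := fun j x => by
    rw [abs_of_nonneg (hf0 j x), hf]; exact min_le_right _ _
  have hfg : ∀ j x, f j x ≤ g x := fun j x => by rw [hf]; exact min_le_left _ _
  have hfi : ∀ j, Integrable (fun x => f j x * p x) := fun j => by
    refine hpi.bdd_mul (c := (j : ℝ)) (hfc j).aestronglyMeasurable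
      (Eventually.of_forall fun x => ?_)
    rw [Real.norm_eq_abs]
    exact hfb j x
  have hB0 : 0 ≤ B := by
    obtain ⟨k, hk1, hk2⟩ := h.exists
    exact (integral_nonneg fun w => hg0 _).trans hk2
  have ha : ∀ j, ∫ x, f j x * p x ≤ B := by
    intro j
    refine le_of_tendsto (hc (f j) (hfc j) ⟨j, hfb j⟩) ?_
    filter_upwards [h] with k hk
    have i1 : Integrable (fun w => f j (Y k w)) (P k) := by
      refine (integrable_const (j : ℝ)).mono' ((hfc j).measurable.comp (hY k)).aestronglyMeasurable
        (Eventually.of_forall fun w => ?_)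
      rw [Real.norm_eq_abs]
      exact hfb j _
    exact (integral_mono i1 hk.1 fun w => hfg j _).trans hk.2
  have hgm : AEStronglyMeasurable (fun x => g x * p x) :=
    hg.aestronglyMeasurable.mul hpi.aestronglyMeasurable
  have h1 : ∫⁻ x, ENNReal.ofReal (g x * p x) ≤ ENNReal.ofReal B := by
    have e1 : ∀ x, ENNReal.ofReal (g x * p x) ≤
        liminf (fun j => ENNReal.ofReal (f j x * p x)) atTop := by
      intro x
      refine le_liminf_of_le (by isBoundedDefault) ?_
      obtain ⟨N, hN⟩ := exists_nat_ge (g x)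
      filter_upwards [eventually_ge_atTop N] with j hj
      have h2 : f j x = g x := by
        rw [hf]
        exact min_eq_left (hN.trans (Nat.cast_le.2 hj))
      rw [h2]
    refine (lintegral_mono e1).trans ((lintegral_liminf_le' fun j =>
      (hfi j).aestronglyMeasurable.aemeasurable.ennreal_ofReal).trans ?_)
    refine liminf_le_of_le (by isBoundedDefault) fun b hb => ?_
    obtain ⟨j, hj⟩ := hb.exists
    refine hj.trans ?_
    rw [← ofReal_integral_eq_lintegral_ofReal (hfi j)
      (Eventually.of_forall fun x => mul_nonneg (hf0 j x) (hp x))]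
    exact ENNReal.ofReal_le_ofReal (ha j)
  have h2 : Integrable (fun x => g x * p x) := by
    refine ⟨hgm, ?_⟩
    rw [hasFiniteIntegral_iff_ofReal (Eventually.of_forall fun x => mul_nonneg (hg0 x) (hp x))]
    exact h1.trans_lt ENNReal.ofReal_lt_top
  refine ⟨h2, ?_⟩
  rw [← ofReal_integral_eq_lintegral_ofReal h2
    (Eventually.of_forall fun x => mul_nonneg (hg0 x) (hp x))] at h1
  exact (ENNReal.ofReal_le_ofReal_iff hB0).1 h1

/-- A lower bound of the integral of a nonnegative function with bounded second moment passes to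
the limit law. -/
theorem lim_lower (hp : ∀ x, 0 ≤ p x) (hp1 : ∫ x, p x = 1)
    (hc : ∀ f : ℝ → ℝ, Continuous f → (∃ C, ∀ x, |f x| ≤ C) →
      Tendsto (fun k => ∫ g, f (Y k g) ∂(P k)) atTop (𝓝 (∫ x, f x * p x)))
    (hY : ∀ k, Measurable (Y k)) {g : ℝ → ℝ} (hg : Continuous g) (hg0 : ∀ x, 0 ≤ g x) {A B : ℝ}
    (hi : Integrable (fun x => g x * p x))
    (h : ∀ᶠ k in atTop, Integrable (fun w => g (Y k w) ^ 2) (P k) ∧
      ∫ w, g (Y k w) ^ 2 ∂(P k) ≤ B ∧ A ≤ ∫ w, g (Y k w) ∂(P k)) :
    A ≤ ∫ x, g x * p x := by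
  have hpi : Integrable p := Integrable.of_integral_ne_zero (by rw [hp1]; norm_num)
  have hB0 : 0 ≤ B := by
    obtain ⟨k, hk1, hk2, -⟩ := h.exists
    exact (integral_nonneg fun w => sq_nonneg _).trans hk2
  have key : ∀ M : ℝ, 0 < M → A - B / M ≤ ∫ x, g x * p x := by
    intro M hM
    obtain ⟨f, hf⟩ : ∃ f : ℝ → ℝ, f = fun x => min (g x) M := ⟨_, rfl⟩
    have hfc : Continuous f := by rw [hf]; exact hg.min continuous_const
    have hf0 : ∀ x, 0 ≤ f x := fun x => by rw [hf]; exact le_min (hg0 x) hM.le
    have hfb : ∀ x, |f x| ≤ M := fun x => by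
      rw [abs_of_nonneg (hf0 x), hf]; exact min_le_right _ _
    have hfg : ∀ x, f x ≤ g x := fun x => by rw [hf]; exact min_le_left _ _
    have hfi : Integrable (fun x => f x * p x) := by
      refine hpi.bdd_mul (c := M) hfc.aestronglyMeasurable (Eventually.of_forall fun x => ?_)
      rw [Real.norm_eq_abs]
      exact hfb x
    have hpt : ∀ x, g x ≤ f x + g x ^ 2 / M := by
      intro x
      rw [hf]
      simp only
      rcases le_total (g x) M with h1 | h1
      · rw [min_eq_left h1]
        have : 0 ≤ g x ^ 2 / M := by positivity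
        linarith
      · rw [min_eq_right h1]
        have h2 : g x ≤ g x ^ 2 / M := by
          rw [le_div_iff₀ hM]
          nlinarith [hg0 x]
        linarith
    have h3 : A - B / M ≤ ∫ x, f x * p x := by
      refine ge_of_tendsto (hc f hfc ⟨M, hfb⟩) ?_
      filter_upwards [h] with k hk
      obtain ⟨k1, k2, k3⟩ := hk
      have i1 : Integrable (fun w => f (Y k w)) (P k) := by
        refine (integrable_const M).mono' (hfc.measurable.comp (hY k)).aestronglyMeasurable
          (Eventually.of_forall fun w => ?_)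
        rw [Real.norm_eq_abs]
        exact hfb _
      have i2 : Integrable (fun w => g (Y k w) ^ 2 / M) (P k) := k1.div_const M
      have i3 : Integrable (fun w => g (Y k w)) (P k) := by
        refine (i1.add i2).mono' (hg.measurable.comp (hY k)).aestronglyMeasurable
          (Eventually.of_forall fun w => ?_)
        rw [Real.norm_eq_abs, abs_of_nonneg (hg0 _)]
        exact hpt _
      have h4 := integral_mono i3 (i1.add i2) fun w => hpt (Y k w)
      simp only [Pi.add_apply] at h4
      rw [integral_add i1 i2, integral_div] at h4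
      have h5 : (∫ w, g (Y k w) ^ 2 ∂(P k)) / M ≤ B / M := div_le_div_of_nonneg_right k2 hM.le
      linarith
    exact h3.trans (integral_mono hfi hi fun x => mul_le_mul_of_nonneg_right (hfg x) (hp x))
  refine le_of_forall_pos_le_add fun ε hε => ?_
  have h6 := key ((B + 1) / ε) (by positivity)
  have h7 : B / ((B + 1) / ε) ≤ ε := by
    rw [div_le_iff₀ (by positivity)]
    have : ε * ((B + 1) / ε) = B + 1 := by field_simp
    linarith
  linarith

end lim

end Vale.Agent.P146.H762
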