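import Vale.Agent.P146.H762.Skew
import Vale.Agent.P146.H762.SkewC

set_option linter.all false

/-!
# P146: the limit laws against the Gaussian law
-/

open MeasureTheory ProbabilityTheory Set Filter Topology

namespace Vale.Agent.P146.H762

open Vale.Agent.P146 Vale.Agent.P146.H605

/-- **The free energy against the Gaussian law of the same variance, for every size.** -/
theorem gauss_compare (n : ℕ) (hn : 1 ≤ n) (β : ℝ) :
    (∀ x : ℝ, 0 ≤ x →
      ∫ g, Real.exp (-(x * (freeEnergy n β g - ∫ h, freeEnergy n β h ∂(disorder n))))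
        ∂(disorder n) ≤ Real.exp (x ^ 2 / 2 * Var[freeEnergy n β; disorder n]) ∧
      Real.exp (x ^ 2 / 2 * Var[freeEnergy n β; disorder n]) ≤
        ∫ g, Real.exp (x * (freeEnergy n β g - ∫ h, freeEnergy n β h ∂(disorder n)))
          ∂(disorder n)) ∧
    0 ≤ ∫ g, (freeEnergy n β g - ∫ h, freeEnergy n β h ∂(disorder n)) ^ 3 ∂(disorder n) :=
  ⟨fun _ hx => ⟨lap_left hn β hx, lap_right n β hx⟩, skew_nonneg hn β⟩

/-- **Every limit law of the normalised fluctuations lies on the left below and on the right above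
the Gaussian law, and its third moment is nonnegative.** -/
theorem post_lim {β : ℝ} {M : ℕ → ℕ}
    (hV : Tendsto (fun k => √Var[freeEnergy (M k) β; disorder (M k)]) atTop atTop)
    {p : ℝ → ℝ} (hp : ∀ x, 0 ≤ p x) (hp1 : ∫ x, p x = 1) (hm : ∫ x, x * p x = 0)
    (hv : ∫ x, x ^ 2 * p x = 1)
    (hc : ∀ f : ℝ → ℝ, Continuous f → (∃ C, ∀ x, |f x| ≤ C) →
      Tendsto (fun k => ∫ g, f ((freeEnergy (M k) β g -
        ∫ h, freeEnergy (M k) β h ∂(disorder (M k))) /
          √Var[freeEnergy (M k) β; disorder (M k)]) ∂(disorder (M k)))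
        atTop (𝓝 (∫ x, f x * p x))) :
    (∀ x : ℝ, 0 ≤ x → Integrable (fun t => Real.exp (-(x * t)) * p t) ∧
      ∫ t, Real.exp (-(x * t)) * p t ≤ Real.exp (x ^ 2 / 2)) ∧
    (∀ x : ℝ, 0 ≤ x → x < 1 / 36 → Integrable (fun t => Real.exp (x * t) * p t) ∧
      Real.exp (x ^ 2 / 2) ≤ ∫ t, Real.exp (x * t) * p t ∧
      ∫ t, Real.exp (x * t) * p t ≤ 7 / 2) ∧
    Integrable (fun t => t ^ 3 * p t) ∧ 0 ≤ ∫ t, t ^ 3 * p t := by
  have hpr : ∀ n, IsProbabilityMeasure (disorder n) := fun n => by
    unfold disorder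
    infer_instance
  have hpi : Integrable p := Integrable.of_integral_ne_zero (by rw [hp1]; norm_num)
  obtain ⟨Y, hY⟩ : ∃ Y : ∀ k, (Pair (M k) → ℝ) → ℝ, Y = fun k g => (freeEnergy (M k) β g -
        ∫ h, freeEnergy (M k) β h ∂(disorder (M k))) /
          √Var[freeEnergy (M k) β; disorder (M k)] := ⟨_, rfl⟩
  have hYm : ∀ k, Measurable (Y k) := fun k => by
    rw [hY]
    exact ((H863.cont_freeEnergy (M k) β).measurable.sub_const _).div_const _
  have hc' : ∀ f : ℝ → ℝ, Continuous f → (∃ C, ∀ x, |f x| ≤ C) →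
      Tendsto (fun k => ∫ g, f (Y k g) ∂(disorder (M k))) atTop (𝓝 (∫ x, f x * p x)) := by
    rw [hY]
    exact hc
  -- for large `k` the standard deviation is at least one, and `M k ≥ 1`
  have hσ : ∀ᶠ k in atTop, 1 ≤ M k ∧ 1 ≤ √Var[freeEnergy (M k) β; disorder (M k)] := by
    filter_upwards [hV.eventually_ge_atTop 1] with k hk
    refine ⟨?_, hk⟩
    by_contra h0
    have h1 : M k = 0 := by omega
    rw [h1] at hk
    have h2 : Var[freeEnergy 0 β; disorder 0] ≤ 0 := by
      have hsub : Subsingleton (Pair 0 → ℝ) := by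
        have : IsEmpty (Pair 0) := ⟨fun q => by
          rcases q with ⟨⟨a, b⟩, h⟩
          exact a.elim0⟩
        infer_instance
      have h3 : freeEnergy 0 β = fun _ => freeEnergy 0 β 0 := by
        funext g
        congr 1
        exact Subsingleton.elim _ _
      rw [h3, variance_eq_integral aemeasurable_const]
      simp
    have h3 : √Var[freeEnergy 0 β; disorder 0] = 0 := Real.sqrt_eq_zero_of_nonpos h2
    rw [h3] at hk
    linarith
  have hL : ∀ x : ℝ, 0 ≤ x → Integrable (fun t => Real.exp (-(x * t)) * p t) ∧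
      ∫ t, Real.exp (-(x * t)) * p t ≤ Real.exp (x ^ 2 / 2) := by
    intro x hx
    refine lim_upper (Y := Y) hp hp1 hc' hYm (g := fun t => Real.exp (-(x * t)))
      (by fun_prop) (fun t => (Real.exp_pos _).le) ?_
    filter_upwards [hσ] with k hk
    obtain ⟨hk1, hk2⟩ := hk
    obtain ⟨s, hs⟩ : ∃ s, s = √Var[freeEnergy (M k) β; disorder (M k)] := ⟨_, rfl⟩
    obtain ⟨m, hm'⟩ : ∃ m, m = ∫ h, freeEnergy (M k) β h ∂(disorder (M k)) := ⟨_, rfl⟩
    have hs0 : 0 < s := by rw [hs]; linarith
    have e1 : ∀ w, Real.exp (-(x * Y k w)) =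
        Real.exp (-(x / s * (freeEnergy (M k) β w - m))) := fun w => by
      rw [hY, hs, hm']
      congr 1
      ring
    refine ⟨?_, ?_⟩
    · have h1 := (Vale.Agent.P146.Sx.integrable_exp (M k) β (-(x / s))).const_mul
        (Real.exp (x / s * m))
      refine h1.congr (Eventually.of_forall fun w => ?_)
      simp only
      rw [e1, ← Real.exp_add]
      congr 1
      ring
    · simp only [e1]
      rw [hm']
      refine (lap_left hk1 β (x := x / s) (by positivity)).trans (le_of_eq ?_)
      congr 1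
      rw [← Real.sq_sqrt (variance_nonneg (freeEnergy (M k) β) (disorder (M k))), ← hs]
      field_simp
  have hR : ∀ x : ℝ, 0 ≤ x → x < 1 / 18 → Integrable (fun t => Real.exp (x * t) * p t) ∧
      ∫ t, Real.exp (x * t) * p t ≤ 7 / 2 := by
    intro x hx hx1
    refine lim_upper (Y := Y) hp hp1 hc' hYm (g := fun t => Real.exp (x * t))
      (by fun_prop) (fun t => (Real.exp_pos _).le) ?_
    filter_upwards [hσ, hV.eventually_ge_atTop (18 * x / (1 - 18 * x))] with k hk hk3
    obtain ⟨hk1, hk2⟩ := hk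
    obtain ⟨s, hs⟩ : ∃ s, s = √Var[freeEnergy (M k) β; disorder (M k)] := ⟨_, rfl⟩
    obtain ⟨m, hm'⟩ : ∃ m, m = ∫ h, freeEnergy (M k) β h ∂(disorder (M k)) := ⟨_, rfl⟩
    have hs0 : 0 < s := by rw [hs]; linarith
    have e1 : ∀ w, Real.exp (x * Y k w) =
        Real.exp (x / s * (freeEnergy (M k) β w - m)) := fun w => by
      rw [hY, hs, hm']
      congr 1
      ring
    rw [← hs, div_le_iff₀ (by linarith)] at hk3
    have h2 : x / s * (18 * (1 + s)) ≤ 1 := by
      rw [div_mul_eq_mul_div, div_le_one hs0]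
      linarith
    obtain ⟨h3, h4⟩ := H641.exp_moment (M k) β (x := x / s) (by positivity) (by
      have : H641.sd1 (M k) β = 1 + s := by rw [hs]; rfl
      rw [this]
      exact h2)
    have hmm : H641.mean (M k) β = m := by rw [hm']; rfl
    rw [hmm] at h3 h4
    refine ⟨h3.congr (Eventually.of_forall fun w => (e1 w).symm), ?_⟩
    simp only [e1]
    exact h4
  have hR2 : ∀ x : ℝ, 0 ≤ x → x < 1 / 36 →
      Real.exp (x ^ 2 / 2) ≤ ∫ t, Real.exp (x * t) * p t := by
    intro x hx hx1
    refine lim_lower (Y := Y) hp hp1 hc' hYm (g := fun t => Real.exp (x * t)) (B := 7 / 2)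
      (by fun_prop) (fun t => (Real.exp_pos _).le) (hR x hx (by linarith)).1 ?_
    filter_upwards [hσ, hV.eventually_ge_atTop (36 * x / (1 - 36 * x))] with k hk hk3
    obtain ⟨hk1, hk2⟩ := hk
    obtain ⟨s, hs⟩ : ∃ s, s = √Var[freeEnergy (M k) β; disorder (M k)] := ⟨_, rfl⟩
    obtain ⟨m, hm'⟩ : ∃ m, m = ∫ h, freeEnergy (M k) β h ∂(disorder (M k)) := ⟨_, rfl⟩
    have hs0 : 0 < s := by rw [hs]; linarith
    have e1 : ∀ w, Real.exp (x * Y k w) =
        Real.exp (x / s * (freeEnergy (M k) β w - m)) := fun w => by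
      rw [hY, hs, hm']
      congr 1
      ring
    have e2 : ∀ w, Real.exp (x * Y k w) ^ 2 =
        Real.exp (2 * x / s * (freeEnergy (M k) β w - m)) := fun w => by
      rw [e1, ← Real.exp_nat_mul]
      congr 1
      push_cast
      ring
    rw [← hs, div_le_iff₀ (by linarith)] at hk3
    have h2 : 2 * x / s * (18 * (1 + s)) ≤ 1 := by
      rw [div_mul_eq_mul_div, div_le_one hs0]
      linarith
    obtain ⟨h3, h4⟩ := H641.exp_moment (M k) β (x := 2 * x / s) (by positivity) (by
      have : H641.sd1 (M k) β = 1 + s := by rw [hs]; rfl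
      rw [this]
      exact h2)
    have hmm : H641.mean (M k) β = m := by rw [hm']; rfl
    rw [hmm] at h3 h4
    refine ⟨h3.congr (Eventually.of_forall fun w => (e2 w).symm), ?_, ?_⟩
    · simp only [e2]
      exact h4
    · simp only [e1]
      rw [hm']
      refine (le_of_eq ?_).trans (lap_right (M k) β (x := x / s) (by positivity))
      congr 1
      rw [← Real.sq_sqrt (variance_nonneg (freeEnergy (M k) β) (disorder (M k))), ← hs]
      field_simp
  refine ⟨hL, fun x hx hx1 => ⟨(hR x hx (by linarith)).1, hR2 x hx hx1,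
    (hR x hx (by linarith)).2⟩, ?_⟩
  -- the third moment
  obtain ⟨a, ha⟩ : ∃ a : ℝ, a = 1 / 40 := ⟨_, rfl⟩
  have ha0 : 0 < a := by rw [ha]; norm_num
  have j1 := (hR a ha0.le (by rw [ha]; norm_num)).1
  have j2 := (hL a ha0.le).1
  have hpow : ∀ j : ℕ, Integrable (fun t => t ^ j * p t) := by
    intro j
    have hpt : ∀ t : ℝ, |t ^ j * p t| ≤ j.factorial * a⁻¹ ^ j *
        (Real.exp (a * t) * p t + Real.exp (-(a * t)) * p t) := by
      intro t
      have h1 : |a * t| ^ j / j.factorial ≤ Real.exp |a * t| :=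
        Real.pow_div_factorial_le_exp _ (abs_nonneg _) j
      have h2 : Real.exp |a * t| ≤ Real.exp (a * t) + Real.exp (-(a * t)) := by
        rcases abs_cases (a * t) with ⟨h, -⟩ | ⟨h, -⟩
        · rw [h]; linarith [Real.exp_pos (-(a * t))]
        · rw [h]; linarith [Real.exp_pos (a * t)]
      have h3 : |t ^ j| = j.factorial * a⁻¹ ^ j * (|a * t| ^ j / j.factorial) := by
        rw [abs_pow, abs_mul, abs_of_pos ha0, mul_pow]
        have hf : (j.factorial : ℝ) ≠ 0 := by positivity
        have he : a⁻¹ ^ j * a ^ j = 1 := by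
          rw [← mul_pow, inv_mul_cancel₀ ha0.ne', one_pow]
        rw [mul_div_assoc', eq_div_iff hf]
        linear_combination (-(j.factorial : ℝ) * |t| ^ j) * he
      rw [abs_mul, abs_of_nonneg (hp t), h3]
      calc j.factorial * a⁻¹ ^ j * (|a * t| ^ j / j.factorial) * p t
          ≤ j.factorial * a⁻¹ ^ j * (Real.exp (a * t) + Real.exp (-(a * t))) * p t :=
            mul_le_mul_of_nonneg_right (mul_le_mul_of_nonneg_left (h1.trans h2) (by positivity))
              (hp t)
        _ = _ := by ring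
    refine ((j1.add j2).const_mul (j.factorial * a⁻¹ ^ j)).mono'
      ((continuous_id.pow j).aestronglyMeasurable.mul hpi.aestronglyMeasurable)
      (Eventually.of_forall fun t => ?_)
    rw [Real.norm_eq_abs]
    exact hpt t
  refine ⟨hpow 3, ?_⟩
  obtain ⟨μ, hμ⟩ : ∃ μ : Measure ℝ, μ = volume.withDensity (fun t => ENNReal.ofReal (p t)) :=
    ⟨_, rfl⟩
  have hae : AEMeasurable (fun t => ENNReal.ofReal (p t)) (volume : Measure ℝ) :=
    hpi.aestronglyMeasurable.aemeasurable.ennreal_ofReal
  have hint : ∀ f : ℝ → ℝ, ∫ x, f x ∂μ = ∫ x, f x * p x := fun f => by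
    rw [hμ, integral_withDensity_eq_integral_toReal_smul₀ hae
      (Eventually.of_forall fun x => ENNReal.ofReal_lt_top)]
    congr 1
    funext x
    rw [ENNReal.toReal_ofReal (hp x), smul_eq_mul, mul_comm]
  have hin : ∀ f : ℝ → ℝ, Integrable (fun x => f x * p x) → Integrable f μ := fun f hf => by
    rw [hμ, integrable_withDensity_iff_integrable_smul₀' hae
      (Eventually.of_forall fun x => ENNReal.ofReal_lt_top)]
    refine hf.congr (Eventually.of_forall fun x => ?_)
    simp only
    rw [ENNReal.toReal_ofReal (hp x), smul_eq_mul, mul_comm]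
  have hpm : IsProbabilityMeasure μ := by
    refine ⟨?_⟩
    rw [hμ, withDensity_apply _ MeasurableSet.univ, Measure.restrict_univ,
      ← ofReal_integral_eq_lintegral_ofReal hpi (Eventually.of_forall hp), hp1]
    simp
  rw [← hint fun t => t ^ 3]
  refine skew_of (μ := μ) (X := fun t => t) (v := 1) (x0 := 1)
    (by simpa using hin (fun t => t ^ 1) (hpow 1)) (hin _ (hpow 2)) (hin _ (hpow 3)) ?_ ?_
    zero_lt_one (fun x hx _ => hin _ (hL x hx.le).1) fun x hx _ => ?_
  · rw [hint fun t => t]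
    exact hm
  · rw [hint fun t => t ^ 2]
    exact hv
  · rw [hint fun t => Real.exp (-(x * t)), mul_one]
    exact (hL x hx.le).2

end Vale.Agent.P146.H762
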