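import Vale.Agent.P146.H762.CoarseS
import Vale.Agent.P146.H620.KampLow

/-!
# P146, the coarse half of K6: from one fine point to all the coarser points, eventually

* `coarse_num`: one `n`, on the window `H620.Low.LN`, from the a-priori moment at the fine point;
* `coarse_kwB`: on the window `KW`: `P(Q ≥ n^(-8q) y / 2) ≤ n^(-θq)` at ONE fine point
  `(T', u', m')`, `T' ≥ n^(-70q) y² / 8`, gives `P(Q > n^(-8q) y) ≤ n^(-(θ/2 - 45)q)` at every
  coarser point;
* `coarse_kw`: the same with the level `n^(-8q) y / 4` and the strict indicator at the fine point,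
  `θ = 1000`, `n^(-300q)`.
-/

open MeasureTheory ProbabilityTheory Filter Topology Set

namespace Vale.Agent.P146.H762

open Vale.Agent.P146.H418 Vale.Agent.P146.H470 Vale.Agent.P146.H529 Vale.Agent.P146.H317
  Vale.Agent.P146.H320 Vale.Agent.P146.H620.Low

set_option linter.unusedSectionVars false

section num

variable {q b K : ℝ} {n : ℕ} {y V : ℝ}

/-- the a-priori second moment of the overlap at the fine point -/
lemma qq_num {T C1 η : ℝ} (hb : 0 < b) (hK : Real.log (512 / b ^ 2) ≤ K) (h : LN q K n y V)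
    (hC1 : 0 < C1) (hKC : Real.log C1 ≤ K) (hη0 : 0 ≤ η) (hη : η ≤ 1 / 2)
    (hT : (n : ℝ) ^ (-(70 * q)) * y ^ 2 / 8 ≤ T) :
    (1 + η) ^ 4 * (C1 * (4 * ((n : ℝ) ^ q * y ^ 4) / (b ^ 2 * T))) ≤
      (n : ℝ) ^ (72 * q) * y ^ 2 := by
  have hn := h.n0
  have hy := h.y0
  have hT0 : 0 < (n : ℝ) ^ (-(70 * q)) * y ^ 2 / 8 := by positivity
  have hT1 : 0 < T := hT0.trans_le hT
  have h1 : 4 * ((n : ℝ) ^ q * y ^ 4) / (b ^ 2 * T) ≤
      (32 / b ^ 2) * ((n : ℝ) ^ (71 * q) * y ^ 2) := by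
    rw [div_le_iff₀ (by positivity)]
    have e1 : (n : ℝ) ^ (71 * q) * (n : ℝ) ^ (-(70 * q)) = (n : ℝ) ^ q := by
      rw [← Real.rpow_add hn]
      congr 1
      ring
    calc 4 * ((n : ℝ) ^ q * y ^ 4) =
        32 / b ^ 2 * ((n : ℝ) ^ (71 * q) * y ^ 2) *
          (b ^ 2 * ((n : ℝ) ^ (-(70 * q)) * y ^ 2 / 8)) := by
          rw [← e1]
          field_simp
          ring
      _ ≤ _ := by gcongr
  have h2 : (1 + η) ^ 4 ≤ 16 := by
    calc (1 + η) ^ 4 ≤ (2 : ℝ) ^ 4 := pow_le_pow_left₀ (by linarith) (by linarith) 4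
      _ = 16 := by norm_num
  have h3 : (1 + η) ^ 4 * (C1 * (4 * ((n : ℝ) ^ q * y ^ 4) / (b ^ 2 * T))) ≤
      16 * (C1 * ((32 / b ^ 2) * ((n : ℝ) ^ (71 * q) * y ^ 2))) := by
    gcongr
  refine h3.trans ?_
  have e : 16 * (C1 * ((32 / b ^ 2) * ((n : ℝ) ^ (71 * q) * y ^ 2))) =
      (512 / b ^ 2) * C1 * ((n : ℝ) ^ (71 * q) * y ^ 2) := by ring
  rw [e]
  refine H470.le_of_log (by positivity) (by positivity) ?_
  rw [Real.log_mul (by positivity) (by positivity), Real.log_mul (by positivity) hC1.ne',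
    Real.log_mul (by positivity) (by positivity), Real.log_mul (by positivity) (by positivity),
    Real.log_rpow hn, Real.log_rpow hn, Real.log_pow]
  push_cast
  have := h.cst
  have := h.qL
  linarith

/-- the final number of the coarse step -/
lemma coarse_final (hK : Real.log 2 ≤ K) (h : LN q K n y V) :
    √((n : ℝ) ^ (72 * q) * y ^ 2 * (n : ℝ) ^ (-(1000 * q))) /
      (2 * ((n : ℝ) ^ (-(8 * q)) * y / 4)) ≤ (n : ℝ) ^ (-(300 * q)) := by
  have hn := h.n0
  have hy := h.y0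
  refine H470.le_of_log (by positivity) (by positivity) ?_
  rw [Real.log_div (by positivity) (by positivity), Real.log_sqrt (by positivity),
    Real.log_mul (by positivity) (by positivity), Real.log_mul (by positivity) (by positivity),
    show 2 * ((n : ℝ) ^ (-(8 * q)) * y / 4) = ((n : ℝ) ^ (-(8 * q)) * y) / 2 by ring,
    Real.log_div (by positivity) (by positivity), Real.log_mul (by positivity) hy.ne',
    Real.log_rpow hn, Real.log_rpow hn, Real.log_rpow hn, Real.log_rpow hn, Real.log_pow]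
  push_cast
  have := h.cst
  have := h.qL
  linarith

/-- the final number of the coarse step, any power at the fine point -/
lemma coarse_finalB (hK : Real.log 2 ≤ K) (h : LN q K n y V) (θ : ℝ) :
    √((n : ℝ) ^ (72 * q) * y ^ 2 * (n : ℝ) ^ (-(θ * q))) / ((n : ℝ) ^ (-(8 * q)) * y / 2) ≤
      (n : ℝ) ^ (-((θ / 2 - 45) * q)) := by
  have hn := h.n0
  have hy := h.y0
  refine H470.le_of_log (by positivity) (by positivity) ?_
  rw [Real.log_div (by positivity) (by positivity), Real.log_sqrt (by positivity),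
    Real.log_mul (by positivity) (by positivity), Real.log_mul (by positivity) (by positivity),
    Real.log_div (by positivity) (by positivity), Real.log_mul (by positivity) hy.ne',
    Real.log_rpow hn, Real.log_rpow hn, Real.log_rpow hn, Real.log_rpow hn, Real.log_pow]
  push_cast
  have := h.cst
  have := h.qL
  linarith

end num

section pt

variable {q b K : ℝ} {n : ℕ} {y V al s lam η : ℝ}

/-- **One `n`**: the coarser points from one fine point. -/
theorem coarse_num (h : LN q K n y V) (hb : 0 < b) (hK2 : Real.log 2 ≤ K)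
    (hK5 : Real.log (512 / b ^ 2) ≤ K) (hKC : Real.log (H412.Cp 1) ≤ K)
    (hlam : 0 < lam) (hη0 : 0 ≤ η) (hη : η ≤ 1 / 2) (hvp : 0 < V - s ^ 2)
    (hmom : ∀ t : ℝ, 0 ≤ t → t < 1 → ∀ u ∈ Icc (0 : ℝ) 1, ∀ (S : Finset (Fin n)) (p : ℕ),
      (lawOf n b y V al s lam η).ex' t u
        (fun z => H412.CC (lawOf n b y V al s lam η) S t u z ^ p) ≤
      H412.Cp p * (4 * ((n : ℝ) ^ q * y ^ 4) / (b ^ 2 * (1 - t))) ^ p)
    {T T' u u' : ℝ} {m m' : ℕ} (hT' : (n : ℝ) ^ (-(70 * q)) * y ^ 2 / 8 ≤ T') (hTT : T' ≤ T)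
    (hT1 : T ≤ 1) (hm : m' ≤ m) (hu0 : 0 ≤ u) (hu : u ≤ u') (hu1 : u' ≤ 1)
    (hp : (lawOf n b y V al s lam η).ex' (1 - T') u'
      (H317.ind ((n : ℝ) ^ (-(8 * q)) * y / 4)
        ((lawOf n b y V al s lam η).Q (Sn n m') (1 - T') u')) ≤ (n : ℝ) ^ (-(1000 * q))) :
    (lawOf n b y V al s lam η).ex' (1 - T) u
      (H317.ind ((n : ℝ) ^ (-(8 * q)) * y)
        ((lawOf n b y V al s lam η).Q (Sn n m) (1 - T) u)) ≤ (n : ℝ) ^ (-(300 * q)) := by
  have hn := h.n0
  have hy := h.y0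
  have hnn : 0 < n := by exact_mod_cast hn
  have hT0 : 0 < T' := lt_of_lt_of_le (by positivity) hT'
  have hum : u' ∈ Icc (0 : ℝ) 1 := ⟨hu0.trans hu, hu1⟩
  have h1 := hmom (1 - T') (by linarith) (by linarith) u' hum (Sn n m') 1
  have e : 1 - (1 - T') = T' := by ring
  rw [e] at h1
  simp only [pow_one] at h1
  have h2 := H412.mom_Q (L := lawOf n b y V al s lam η) hlam hη0 hnn (Sn n m') (1 - T') u' 1
  simp only [mul_one, pow_one] at h2
  have h3 : (lawOf n b y V al s lam η).qq (Sn n m') (1 - T') u' ≤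
      (n : ℝ) ^ (72 * q) * y ^ 2 := by
    refine (show (lawOf n b y V al s lam η).qq (Sn n m') (1 - T') u' ≤ _ from h2).trans ?_
    refine le_trans (mul_le_mul_of_nonneg_left h1 (by
      show 0 ≤ (1 + η) ^ 4
      positivity)) ?_
    exact qq_num hb hK5 h (H620.Low.Cp_pos 1) hKC hη0 hη hT'
  have hℓ : 0 < (n : ℝ) ^ (-(8 * q)) * y / 4 := by positivity
  have h4 := coarse_ind' (L := lawOf n b y V al s lam η) (S := Sn n m) (S' := Sn n m')
    (t := 1 - T) (t' := 1 - T') (u := u) (u' := u') hlam hη0 hvp hnn (H643.Sn_anti hm)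
    (by linarith) (by linarith) (by linarith) hu0 hu hu1 hℓ h3 hp
  rw [show 4 * ((n : ℝ) ^ (-(8 * q)) * y / 4) = (n : ℝ) ^ (-(8 * q)) * y by ring] at h4
  exact h4.trans (coarse_final hK2 h)

/-- **One `n`**: the coarser points from one fine point, `big` form, any power. -/
theorem coarse_numB (h : LN q K n y V) (hb : 0 < b) (hK2 : Real.log 2 ≤ K)
    (hK5 : Real.log (512 / b ^ 2) ≤ K) (hKC : Real.log (H412.Cp 1) ≤ K)
    (hlam : 0 < lam) (hη0 : 0 ≤ η) (hη : η ≤ 1 / 2) (hvp : 0 < V - s ^ 2)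
    (hmom : ∀ t : ℝ, 0 ≤ t → t < 1 → ∀ u ∈ Icc (0 : ℝ) 1, ∀ (S : Finset (Fin n)) (p : ℕ),
      (lawOf n b y V al s lam η).ex' t u
        (fun z => H412.CC (lawOf n b y V al s lam η) S t u z ^ p) ≤
      H412.Cp p * (4 * ((n : ℝ) ^ q * y ^ 4) / (b ^ 2 * (1 - t))) ^ p)
    {T T' u u' : ℝ} {m m' : ℕ} (hT' : (n : ℝ) ^ (-(70 * q)) * y ^ 2 / 8 ≤ T') (hTT : T' ≤ T)
    (hT1 : T ≤ 1) (hm : m' ≤ m) (hu0 : 0 ≤ u) (hu : u ≤ u') (hu1 : u' ≤ 1) {θ : ℝ}
    (hp : (lawOf n b y V al s lam η).ex' (1 - T') u'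
      (big ((n : ℝ) ^ (-(8 * q)) * y / 2)
        ((lawOf n b y V al s lam η).Q (Sn n m') (1 - T') u')) ≤ (n : ℝ) ^ (-(θ * q))) :
    (lawOf n b y V al s lam η).ex' (1 - T) u
      (H317.ind ((n : ℝ) ^ (-(8 * q)) * y)
        ((lawOf n b y V al s lam η).Q (Sn n m) (1 - T) u)) ≤
      (n : ℝ) ^ (-((θ / 2 - 45) * q)) := by
  have hn := h.n0
  have hy := h.y0
  have hnn : 0 < n := by exact_mod_cast hn
  have hT0 : 0 < T' := lt_of_lt_of_le (by positivity) hT'
  have hum : u' ∈ Icc (0 : ℝ) 1 := ⟨hu0.trans hu, hu1⟩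
  have h1 := hmom (1 - T') (by linarith) (by linarith) u' hum (Sn n m') 1
  have e : 1 - (1 - T') = T' := by ring
  rw [e] at h1
  simp only [pow_one] at h1
  have h2 := H412.mom_Q (L := lawOf n b y V al s lam η) hlam hη0 hnn (Sn n m') (1 - T') u' 1
  simp only [mul_one, pow_one] at h2
  have h3 : (lawOf n b y V al s lam η).qq (Sn n m') (1 - T') u' ≤
      (n : ℝ) ^ (72 * q) * y ^ 2 := by
    refine (show (lawOf n b y V al s lam η).qq (Sn n m') (1 - T') u' ≤ _ from h2).trans ?_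
    refine le_trans (mul_le_mul_of_nonneg_left h1 (by
      show 0 ≤ (1 + η) ^ 4
      positivity)) ?_
    exact qq_num hb hK5 h (H620.Low.Cp_pos 1) hKC hη0 hη hT'
  have hℓ : 0 < (n : ℝ) ^ (-(8 * q)) * y / 2 := by positivity
  have h4 := coarse_ind (L := lawOf n b y V al s lam η) (S := Sn n m) (S' := Sn n m')
    (t := 1 - T) (t' := 1 - T') (u := u) (u' := u') hlam hη0 hvp hnn (H643.Sn_anti hm)
    (by linarith) (by linarith) (by linarith) hu0 hu hu1 hℓ h3
    (p := (n : ℝ) ^ (-(θ * q))) (by rw [big_eq]; exact hp)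
  rw [show 2 * ((n : ℝ) ^ (-(8 * q)) * y / 2) = (n : ℝ) ^ (-(8 * q)) * y by ring] at h4
  exact h4.trans (coarse_finalB hK2 h θ)

end pt

/-- the facts of the window which the coarse step uses -/
theorem coarse_facts {a0 b₁ q A b : ℝ} (hq : 0 < q) (hb : 0 < b) (hA : 1 ≤ A) (ha0 : a0 ≤ 1 / 6)
    (hb₁ : 100 * q < b₁) :
    ∀ᶠ n : ℕ in atTop, ∀ y V al s lam η : ℝ, KW a0 b₁ q A b n y V al s lam η →
      LN q (Kc b + |Real.log (512 / b ^ 2)|) n y V ∧ η ≤ 1 / 2 ∧ 0 < V - s ^ 2 ∧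
      ∀ t : ℝ, 0 ≤ t → t < 1 → ∀ u ∈ Icc (0 : ℝ) 1, ∀ (S : Finset (Fin n)) (p : ℕ),
      (lawOf n b y V al s lam η).ex' t u
        (fun z => H412.CC (lawOf n b y V al s lam η) S t u z ^ p) ≤
      H412.Cp p * (4 * ((n : ℝ) ^ q * y ^ 4) / (b ^ 2 * (1 - t))) ^ p := by
  filter_upwards [env_ev (a0 := a0) (b₁ := b₁) (d := 24 * q)
      (Kc b + |Real.log (512 / b ^ 2)|) hq hA,
    H516.mom_ev1 (b := b) (e := 999 * q) (s0 := q / 2) (s1 := q) hb (by linarith) (by linarith)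
      (by linarith)] with n g1 g2
  intro y V al s lam η h
  have e := g1 y V h.yl h.yu h.Vl h.Vu
  have l : LN q (Kc b + |Real.log (512 / b ^ 2)|) n y V := LN.of e ha0 hb₁.le
  have hn := l.n0
  have hy := l.y0
  have hV := l.V0
  have k0 := abs_nonneg (Real.log (512 / b ^ 2))
  have k5 := le_abs_self (Real.log (512 / b ^ 2))
  obtain ⟨k15, k8b, k1b, k8d, kC1, kC2, k9, kCb⟩ := Kc_le b
  have k2 : Real.log 2 ≤ Kc b := (Real.log_le_log (by norm_num) (by norm_num)).trans k15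
  have hK0 : 0 ≤ Kc b := (Real.log_nonneg (by norm_num)).trans k2
  have hy2 := y_half l (by linarith)
  have hlp := h.l0
  have hηp := h.η0
  have k3 : Real.log 3 ≤ Kc b := (Real.log_le_log (by norm_num) (by norm_num)).trans k15
  have hη3 : η ≤ 1 / 3 := by
    refine h.η1.trans (H470.le_of_log (Real.rpow_pos_of_pos hn _) (by norm_num) ?_)
    rw [Real.log_rpow hn, Real.log_div (by norm_num) (by norm_num), Real.log_one]
    linarith [l.cst, l.qL]
  have hη2 : η ≤ 1 / 2 := by linarith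
  have hV1 : V ≤ 1 := by
    refine H470.le_of_log hV one_pos ?_
    rw [Real.log_one]
    have := l.Vu
    have := l.hi
    have := l.qL
    linarith
  have hs2' : s ^ 2 ≤ V / 2 := by
    refine h.s2.trans ?_
    have : (n : ℝ) ^ (-(80 * q)) ≤ 1 / 2 := by
      refine H470.le_of_log (Real.rpow_pos_of_pos hn _) (by norm_num) ?_
      rw [Real.log_rpow hn, Real.log_div (by norm_num) (by norm_num), Real.log_one]
      linarith [l.cst, l.qL]
    have := mul_le_mul_of_nonneg_right this hV.le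
    linarith
  have hvp : 0 < V - s ^ 2 := by linarith
  have hnq : 1 ≤ (n : ℝ) ^ q := Real.one_le_rpow (by
    have := h.n1.le
    exact_mod_cast this) hq.le
  have hlη : 1 ≤ lam * η := by
    have a1 := hnq.trans h.ll
    have a2 : y * (lam * η) ≤ 1 * (lam * η) :=
      mul_le_mul_of_nonneg_right (by linarith) (by positivity)
    linarith
  have hl1 : 1 ≤ lam := by
    have : lam * η ≤ lam * 1 := mul_le_mul_of_nonneg_left (by linarith) hlp.le
    linarith
  have hy0' : (n : ℝ) ^ (-(1 / 6) + 999 * q) ≤ y := by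
    refine H470.le_of_log (by positivity) hy ?_
    rw [Real.log_rpow hn]
    have := l.lo
    linarith
  have hpar : H516.Par1 b (q / 2) (999 * q) n (V - s ^ 2) s lam η y V al :=
    ⟨hvp.le, by ring, hV1, h.s0, hl1, h.η0, hη3, hlη, hy0', by linarith, h.ap, h.sg⟩
  have hyb : y ^ 2 * b ^ 2 ≤ 4 := by
    have := yb_small hb (by linarith) l
    linarith
  have hmom := g2 (V - s ^ 2) s lam η y V al hpar hyb
  exact ⟨l, hη2, hvp, hmom⟩

lemma Kc_more (b : ℝ) : Real.log 2 ≤ Kc b + |Real.log (512 / b ^ 2)| ∧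
    Real.log (512 / b ^ 2) ≤ Kc b + |Real.log (512 / b ^ 2)| ∧
    Real.log (H412.Cp 1) ≤ Kc b + |Real.log (512 / b ^ 2)| := by
  have k0 := abs_nonneg (Real.log (512 / b ^ 2))
  have k5 := le_abs_self (Real.log (512 / b ^ 2))
  obtain ⟨k15, k8b, k1b, k8d, kC1, kC2, k9, kCb⟩ := Kc_le b
  have k2 : Real.log 2 ≤ Kc b := (Real.log_le_log (by norm_num) (by norm_num)).trans k15
  have hK0 : 0 ≤ Kc b := (Real.log_nonneg (by norm_num)).trans k2
  exact ⟨by linarith, by linarith, by linarith⟩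

/-- **The coarse half of K6, eventually on the window**, `big` form, any power. -/
theorem coarse_kwB {a0 b₁ q A b : ℝ} (hq : 0 < q) (hb : 0 < b) (hA : 1 ≤ A) (ha0 : a0 ≤ 1 / 6)
    (hb₁ : 100 * q < b₁) :
    ∀ᶠ n : ℕ in atTop, ∀ y V al s lam η : ℝ, KW a0 b₁ q A b n y V al s lam η →
      ∀ (T T' u u' θ : ℝ) (m m' : ℕ), (n : ℝ) ^ (-(70 * q)) * y ^ 2 / 8 ≤ T' → T' ≤ T → T ≤ 1 →
        m' ≤ m → 0 ≤ u → u ≤ u' → u' ≤ 1 →
        (lawOf n b y V al s lam η).ex' (1 - T') u'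
          (big ((n : ℝ) ^ (-(8 * q)) * y / 2)
            ((lawOf n b y V al s lam η).Q (Sn n m') (1 - T') u')) ≤ (n : ℝ) ^ (-(θ * q)) →
        (lawOf n b y V al s lam η).ex' (1 - T) u
          (H317.ind ((n : ℝ) ^ (-(8 * q)) * y)
            ((lawOf n b y V al s lam η).Q (Sn n m) (1 - T) u)) ≤
          (n : ℝ) ^ (-((θ / 2 - 45) * q)) := by
  filter_upwards [coarse_facts (A := A) hq hb hA ha0 hb₁] with n g
  intro y V al s lam η h T T' u u' θ m m' h1 h2 h3 h4 h5 h6 h7 h8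
  obtain ⟨l, hη2, hvp, hmom⟩ := g y V al s lam η h
  obtain ⟨k1, k2, k3⟩ := Kc_more b
  exact coarse_numB l hb k1 k2 k3 h.l0 h.η0.le hη2 hvp hmom h1 h2 h3 h4 h5 h6 h7 h8

/-- **The coarse half of K6, eventually on the window.** -/
theorem coarse_kw {a0 b₁ q A b : ℝ} (hq : 0 < q) (hb : 0 < b) (hA : 1 ≤ A) (ha0 : a0 ≤ 1 / 6)
    (hb₁ : 100 * q < b₁) :
    ∀ᶠ n : ℕ in atTop, ∀ y V al s lam η : ℝ, KW a0 b₁ q A b n y V al s lam η →
      ∀ (T T' u u' : ℝ) (m m' : ℕ), (n : ℝ) ^ (-(70 * q)) * y ^ 2 / 8 ≤ T' → T' ≤ T → T ≤ 1 →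
        m' ≤ m → 0 ≤ u → u ≤ u' → u' ≤ 1 →
        (lawOf n b y V al s lam η).ex' (1 - T') u'
          (H317.ind ((n : ℝ) ^ (-(8 * q)) * y / 4)
            ((lawOf n b y V al s lam η).Q (Sn n m') (1 - T') u')) ≤ (n : ℝ) ^ (-(1000 * q)) →
        (lawOf n b y V al s lam η).ex' (1 - T) u
          (H317.ind ((n : ℝ) ^ (-(8 * q)) * y)
            ((lawOf n b y V al s lam η).Q (Sn n m) (1 - T) u)) ≤ (n : ℝ) ^ (-(300 * q)) := by
  filter_upwards [coarse_facts (A := A) hq hb hA ha0 hb₁] with n g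
  intro y V al s lam η h T T' u u' m m' h1 h2 h3 h4 h5 h6 h7 h8
  obtain ⟨l, hη2, hvp, hmom⟩ := g y V al s lam η h
  obtain ⟨k1, k2, k3⟩ := Kc_more b
  exact coarse_num l hb k1 k2 k3 h.l0 h.η0.le hη2 hvp hmom h1 h2 h3 h4 h5 h6 h7 h8

end Vale.Agent.P146.H762
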