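import Vale.Agent.P146.H762.Coarse
import Vale.Agent.P146.H762.Qm
import Vale.Agent.P146.H418.Skel
import Vale.Agent.P146.H698.Kgrid

/-!
The coarser step on the names of `H418.Skel`: from `P'(Q' ≥ ℓ)` at one fine point `(S', t', u')` to
`P(Q > 2 ℓ)` at every coarser point `S ⊆ S'`, `t ≤ t'`, `u ≤ u'`.
-/

open MeasureTheory ProbabilityTheory

namespace Vale.Agent.P146.H762

open Vale.Agent.P157.Lv hiding Dep
open Vale.Agent.P146.H425 Vale.Agent.P146.H646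
open Vale.Agent.P146.H325 hiding cb cf
open Vale.Agent.P146.H196 Vale.Agent.P146.H246 Vale.Agent.P146.H347
  Vale.Agent.P146.H816 Vale.Agent.P146.H119 Vale.Agent.P146.H475 Vale.Agent.P146.H418
  Vale.Agent.P146.H317

set_option linter.unusedSectionVars false

section skel

variable {L : Law} {S S' : Finset (Fin L.n)} {t t' u u' : ℝ}

lemma sh_law (v : ℝ) (h0 : 0 ≤ t) (h1 : t ≤ 1) (h2 : 0 ≤ u) (h3 : u ≤ 1) :
    Sh (cb t) (cf v u) {true} {true} 1 (√v) t u :=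
  H698.sh_can v h0 h1 h2 h3

lemma wt_law (hl : 0 < L.lam) (hη : 0 ≤ L.η) (t u : ℝ) : Wt (g1 (Co L.n Bool Bool)) (L.wt t u) :=
  wtA (n := L.n) L.b (cb t) (cf L.vp u) L.s hl hη L.c L.x

lemma Q_eq_ma (z : Co L.n Bool Bool → ℝ) :
    L.Q S t u z = ma L.b (cb t) (cf L.vp u) L.s L.η L.lam L.c L.x (Kt L.n S) S z / L.n := rfl

lemma bm_Qs (hl : 0 < L.lam) (hη : 0 ≤ L.η) : BM (L.Q S t u) := by
  have h := H615.bcm (1 / (L.n : ℝ))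
    (bm_ma L.b (cb t) (cf L.vp u) L.s hl hη L.c L.x (Kt L.n S) S)
  have e : (fun z => 1 / (L.n : ℝ) *
      ma L.b (cb t) (cf L.vp u) L.s L.η L.lam L.c L.x (Kt L.n S) S z) = L.Q S t u := by
    funext z
    rw [Q_eq_ma]
    ring
  rwa [e] at h

lemma Q_nn (z : Co L.n Bool Bool → ℝ) : 0 ≤ L.Q S t u z :=
  div_nonneg (Finset.sum_nonneg fun _ _ => sq_nonneg _) (Nat.cast_nonneg _)

/-- the amplitude times a spin -/
noncomputable def fA (n : ℕ) (η : ℝ) (i : Fin n) (w : ℝ × Xs n) : ℝ := al η w.1 * sp w.2 i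

lemma bm_fA (n : ℕ) {η : ℝ} (hη : 0 ≤ η) (i : Fin n) : Bm (fA n η i) :=
  (bm_of_al (n := n) hη).mul (bm_sp i)

lemma qs_Q (z : Co L.n Bool Bool → ℝ) :
    qs S (L.n : ℝ) (fun i => cg (muA (Xs L.n) L.lam L.η L.c)
      (Sm L.b (cb t) (cf L.vp u) L.s L.η) L.x (Kset S {true} {true}) (fA L.n L.η i) z) =
      L.Q S t u z := rfl

lemma bs_Q (ℓ : ℝ) (z : Co L.n Bool Bool → ℝ) :
    bs S (L.n : ℝ) ℓ (fun i => cg (muA (Xs L.n) L.lam L.η L.c)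
      (Sm L.b (cb t) (cf L.vp u) L.s L.η) L.x (Kset S {true} {true}) (fA L.n L.η i) z) =
      big ℓ (L.Q S t u) z := rfl

/-- **coarser point**, squared form: `(ℓ P(Q ≥ 2 ℓ))² ≤ E' Q'² · P'(Q' ≥ ℓ)`. -/
theorem coarse_law (hl : 0 < L.lam) (hη : 0 ≤ L.η) (hv : 0 < L.vp) (hn : 0 < L.n) (hS : S ⊆ S')
    (ht0 : 0 ≤ t) (ht : t ≤ t') (ht1 : t' ≤ 1) (hu0 : 0 ≤ u) (hu : u ≤ u') (hu1 : u' ≤ 1)
    {ℓ : ℝ} (hℓ : 0 ≤ ℓ) :
    (ℓ * L.ex' t u (big (2 * ℓ) (L.Q S t u))) ^ 2 ≤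
      L.qq S' t' u' * L.ex' t' u' (big ℓ (L.Q S' t' u')) := by
  have hn' : (0 : ℝ) < L.n := by exact_mod_cast hn
  exact coarse_sk (b := L.b) (s := L.s) (η := L.η) (A := Fin L.n)
    (gmA (n := L.n) L.b (fun _ : Unit => (1 : ℝ)) (fun _ : Unit => √L.vp) L.s hl hη L.c)
    one_pos (Real.sqrt_pos.2 hv) (sh_law L.vp ht0 (ht.trans ht1) hu0 (hu.trans hu1))
    (sh_law L.vp (ht0.trans ht) ht1 (hu0.trans hu) hu1) hS ht hu L.x hS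
    (fun i => bm_fA L.n hη i) hn' hℓ

/-- **coarser point**: `P(Q > 2 ℓ) ≤ (1/ℓ) (E' Q'² · p)^(1/2)` if `P'(Q' ≥ ℓ) ≤ p`. -/
theorem coarse_ind (hl : 0 < L.lam) (hη : 0 ≤ L.η) (hv : 0 < L.vp) (hn : 0 < L.n) (hS : S ⊆ S')
    (ht0 : 0 ≤ t) (ht : t ≤ t') (ht1 : t' ≤ 1) (hu0 : 0 ≤ u) (hu : u ≤ u') (hu1 : u' ≤ 1)
    {ℓ q p : ℝ} (hℓ : 0 < ℓ) (hq : L.qq S' t' u' ≤ q)
    (hp : L.ex' t' u' ({z | ℓ ≤ L.Q S' t' u' z}.indicator 1) ≤ p) :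
    L.ex' t u (H317.ind (2 * ℓ) (L.Q S t u)) ≤ √(q * p) / ℓ := by
  have hw := wt_law (L := L) hl hη t u
  have hw' := wt_law (L := L) hl hη t' u'
  have h1 := coarse_law (L := L) hl hη hv hn hS ht0 ht ht1 hu0 hu hu1 hℓ.le
  rw [big_eq] at hp
  have h2 : L.ex' t u (H317.ind (2 * ℓ) (L.Q S t u)) ≤ L.ex' t u (big (2 * ℓ) (L.Q S t u)) :=
    H615.ex_mono hw (H317.bm_ind (bm_Qs hl hη).meas _) (bm_big (bm_Qs hl hη).meas _)
      fun z => ind_le_big _ _ z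
  have hq0 : 0 ≤ L.qq S' t' u' := H615.ex_nonneg hw' fun z => sq_nonneg _
  have hp0 : 0 ≤ L.ex' t' u' (big ℓ (L.Q S' t' u')) :=
    H615.ex_nonneg hw' fun z => big_nonneg _ _ z
  have h3 : L.qq S' t' u' * L.ex' t' u' (big ℓ (L.Q S' t' u')) ≤ q * p :=
    mul_le_mul hq hp hp0 (hq0.trans hq)
  rw [le_div_iff₀ hℓ]
  refine Real.le_sqrt_of_sq_le ?_
  calc (L.ex' t u (H317.ind (2 * ℓ) (L.Q S t u)) * ℓ) ^ 2
      ≤ (ℓ * L.ex' t u (big (2 * ℓ) (L.Q S t u))) ^ 2 := by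
        refine pow_le_pow_left₀ (mul_nonneg (H317.ex_ind_nonneg hw _ _) hℓ.le) ?_ 2
        rw [mul_comm]
        exact mul_le_mul_of_nonneg_left h2 hℓ.le
    _ ≤ _ := h1
    _ ≤ _ := h3

/-- the same with the strict indicator on the fine side -/
theorem coarse_ind' (hl : 0 < L.lam) (hη : 0 ≤ L.η) (hv : 0 < L.vp) (hn : 0 < L.n) (hS : S ⊆ S')
    (ht0 : 0 ≤ t) (ht : t ≤ t') (ht1 : t' ≤ 1) (hu0 : 0 ≤ u) (hu : u ≤ u') (hu1 : u' ≤ 1)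
    {ℓ q p : ℝ} (hℓ : 0 < ℓ) (hq : L.qq S' t' u' ≤ q)
    (hp : L.ex' t' u' (H317.ind ℓ (L.Q S' t' u')) ≤ p) :
    L.ex' t u (H317.ind (4 * ℓ) (L.Q S t u)) ≤ √(q * p) / (2 * ℓ) := by
  have hw' := wt_law (L := L) hl hη t' u'
  have h1 : L.ex' t' u' ({z | 2 * ℓ ≤ L.Q S' t' u' z}.indicator 1) ≤ p := by
    rw [big_eq]
    refine le_trans (H615.ex_mono hw' (bm_big (bm_Qs hl hη).meas _)
      (H317.bm_ind (bm_Qs hl hη).meas _) fun z => ?_) hp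
    unfold big H317.ind
    by_cases h : 2 * ℓ ≤ L.Q S' t' u' z
    · rw [if_pos h, if_pos (by linarith)]
    · rw [if_neg h]
      split_ifs <;> norm_num
  have h2 := coarse_ind (L := L) hl hη hv hn hS ht0 ht ht1 hu0 hu hu1
    (by linarith : 0 < 2 * ℓ) hq h1
  have e : 4 * ℓ = 2 * (2 * ℓ) := by ring
  rw [e]
  exact h2

/-- **congruence**: the probability of `Q ≥ ℓ` in any level system with the shares `t, u`. -/
theorem big_can {LB LF : Type} [Fintype LB] [DecidableEq LB] [Fintype LF] [DecidableEq LF]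
    {cB : LB → ℝ} {cF : LF → ℝ} {BL : Finset LB} {FL : Finset LF}
    (hl : 0 < L.lam) (hη : 0 ≤ L.η) (hv : 0 < L.vp) (hs : Sh cB cF BL FL 1 (√L.vp) t u)
    (ht0 : 0 ≤ t) (ht1 : t ≤ 1) (hu0 : 0 ≤ u) (hu1 : u ≤ 1) (ℓ : ℝ) :
    em L.b cB cF L.s L.η L.lam L.c L.x
      (big ℓ fun z => ma L.b cB cF L.s L.η L.lam L.c L.x (Kset S BL FL) S z / L.n) =
      L.ex' t u (big ℓ (L.Q S t u)) :=
  H9.sk_congr (b := L.b) (s := L.s) (η := L.η) (A := Fin L.n)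
    (gmA (n := L.n) L.b (fun _ : Unit => (1 : ℝ)) (fun _ : Unit => √L.vp) L.s hl hη L.c)
    one_pos (Real.sqrt_pos.2 hv) hs (sh_law L.vp ht0 ht1 hu0 hu1) S L.x
    (f := fA L.n L.η) (fun i => bm_fA L.n hη i) (Φ := bs S (L.n : ℝ) ℓ) (meas_bs S (L.n : ℝ) ℓ)
    fun _ => ⟨1, fun v _ => abs_bs S (L.n : ℝ) ℓ v⟩

end skel

end Vale.Agent.P146.H762
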