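import Vale.Agent.P146.H9.MonoSK
import Vale.Agent.P146.H317.ExBridge

/-!
From one fine set of frozen coordinates to every coarser one.

`Q = (∑ a ∈ s, (E[φ_a | K])²) / N`. If `K` is coarser than `K'` (smaller shares, smaller index set
of the sum), then `P(2 L ≤ Q) ≤ (1 / L) (E Q'²)^(1/2) P'(L ≤ Q')^(1/2)`.

* `coarse_one` : one system, `K3 ⊆ K2`.
* `coarse_ls` : two level systems with shares `q ≤ q'`.
* `coarse_gibbs`, `coarse_sk` : Gibbs systems, literal coordinates.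
-/

open MeasureTheory ProbabilityTheory

namespace Vale.Agent.P146.H762

open Vale.Agent.P157.Lv Vale.Agent.P146.H425 Vale.Agent.P146.H332 Vale.Agent.P146.H646
open Vale.Agent.P146.H196 Vale.Agent.P146.H246 Vale.Agent.P146.H615 Vale.Agent.P146.H317
open Vale.Agent.P146.H9
open Vale.Agent.P146.H347 (g1)
open Vale.Agent.P146.H325 (Tc)

set_option linter.unusedSectionVars false

/-! ### one system -/

section one

variable {κ : Type*} [Fintype κ] [DecidableEq κ] {μ : κ → Measure ℝ}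
  [∀ e, IsProbabilityMeasure (μ e)] {w Q2 Q3 : (κ → ℝ) → ℝ} {K : Finset κ} {L : ℝ}

/-- the indicator of `{L ≤ Q}` as a function -/
noncomputable def big (L : ℝ) (Q : (κ → ℝ) → ℝ) (z : κ → ℝ) : ℝ := if L ≤ Q z then 1 else 0

lemma big_eq (L : ℝ) (Q : (κ → ℝ) → ℝ) : {z | L ≤ Q z}.indicator 1 = big L Q := by
  funext z
  unfold big
  by_cases hz : L ≤ Q z
  · rw [Set.indicator_of_mem (show z ∈ {z | L ≤ Q z} from hz), if_pos hz]; rfl
  · rw [Set.indicator_of_notMem (show z ∉ {z | L ≤ Q z} from hz), if_neg hz]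

lemma big_nonneg (L : ℝ) (Q : (κ → ℝ) → ℝ) (z : κ → ℝ) : 0 ≤ big L Q z := by
  unfold big; split_ifs <;> norm_num

lemma big_le_one (L : ℝ) (Q : (κ → ℝ) → ℝ) (z : κ → ℝ) : big L Q z ≤ 1 := by
  unfold big; split_ifs <;> norm_num

lemma big_sq (L : ℝ) (Q : (κ → ℝ) → ℝ) (z : κ → ℝ) : big L Q z ^ 2 = big L Q z := by
  unfold big; split_ifs <;> norm_num

lemma bm_big {Q : (κ → ℝ) → ℝ} (hQ : Measurable Q) (L : ℝ) : BM (big L Q) := by
  refine ⟨?_, 1, fun z => ?_⟩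
  · exact Measurable.ite (measurableSet_le measurable_const hQ) measurable_const measurable_const
  · rw [abs_of_nonneg (big_nonneg L Q z)]
    exact big_le_one L Q z

lemma dep_big {Q : (κ → ℝ) → ℝ} (hQ : Dep K Q) (L : ℝ) : Dep K (big L Q) := by
  intro z z'
  unfold big
  rw [hQ z z']

/-- `1{c < Q} ≤ 1{c ≤ Q}` -/
lemma ind_le_big (c : ℝ) (Q : (κ → ℝ) → ℝ) (z : κ → ℝ) : ind c Q z ≤ big c Q z := by
  unfold ind big
  by_cases h : c < Q z
  · rw [if_pos h, if_pos h.le]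
  · rw [if_neg h]
    split_ifs <;> norm_num

/-- `P(2 L ≤ Q3) ≤ (1 / L) E[1{L ≤ Q2} Q2]` when `Q3 ≤ E[Q2 | K]` and `Q3` depends on `K`. -/
theorem coarse_L1 (hw : Wt μ w) (h2 : BM Q2) (h3 : BM Q3) (hd : Dep K Q3)
    (hle : ∀ z, Q3 z ≤ cx μ K w Q2 z) (h0 : ∀ z, 0 ≤ Q2 z) (hL : 0 ≤ L) :
    L * ex μ w (big (2 * L) Q3) ≤ ex μ w (fun z => big L Q2 z * Q2 z) := by
  have hb := bm_big h3.meas (2 * L)
  have hb2 := bm_big h2.meas L
  have e1 : ex μ w (fun z => 2 * L * big (2 * L) Q3 z) ≤ ex μ w (fun z => big (2 * L) Q3 z * Q3 z) :=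
    ex_mono hw (bcm _ hb) (hb.mul h3) fun z => by
      unfold big
      split_ifs with h
      · linarith
      · simp
  have e2 : ex μ w (fun z => big (2 * L) Q3 z * Q3 z) ≤ ex μ w (fun z => big (2 * L) Q3 z * Q2 z) := by
    rw [← ex_cx hw (dep_big hd (2 * L)) hb h2]
    exact ex_mono hw (hb.mul h3) (hb.mul (hw.bm_cx K h2)) fun z =>
      mul_le_mul_of_nonneg_left (hle z) (big_nonneg _ _ z)
  have e3 : ex μ w (fun z => big (2 * L) Q3 z * Q2 z) ≤
      ex μ w (fun z => L * big (2 * L) Q3 z + big L Q2 z * Q2 z) :=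
    ex_mono hw (hb.mul h2) ((bcm L hb).add (hb2.mul h2)) fun z => by
      unfold big
      have := h0 z
      split_ifs with h h' h'
      · linarith
      all_goals nlinarith
  rw [ex_cmul] at e1
  rw [ex_add hw (bcm L hb) (hb2.mul h2), ex_cmul] at e3
  linarith

/-- one system -/
theorem coarse_one (hw : Wt μ w) (h2 : BM Q2) (h3 : BM Q3) (hd : Dep K Q3)
    (hle : ∀ z, Q3 z ≤ cx μ K w Q2 z) (h0 : ∀ z, 0 ≤ Q2 z) (hL : 0 ≤ L) :
    (L * ex μ w (big (2 * L) Q3)) ^ 2 ≤ ex μ w (fun z => Q2 z ^ 2) * ex μ w (big L Q2) := by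
  have h1 := coarse_L1 (L := L) hw h2 h3 hd hle h0 hL
  have hb2 := bm_big h2.meas L
  have h4 := ex_mul_sq_le hw hb2 h2
  have e1 : (fun z => big L Q2 z ^ 2) = big L Q2 := funext fun z => big_sq L Q2 z
  rw [e1] at h4
  have h5 : 0 ≤ L * ex μ w (big (2 * L) Q3) :=
    mul_nonneg hL (ex_nonneg hw fun z => big_nonneg _ _ z)
  calc (L * ex μ w (big (2 * L) Q3)) ^ 2 ≤ ex μ w (fun z => big L Q2 z * Q2 z) ^ 2 :=
        pow_le_pow_left₀ h5 h1 2
    _ ≤ ex μ w (big L Q2) * ex μ w (fun z => Q2 z ^ 2) := h4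
    _ = _ := mul_comm _ _

end one

/-! ### level systems -/

section ls

variable {κ κ' ι : Type} [Fintype κ] [DecidableEq κ] [Fintype κ'] [DecidableEq κ']
  [Fintype ι] [DecidableEq ι]
variable {p : κ → ι} {c : κ → ℝ} {K : Finset κ} {p' : κ' → ι} {c' : κ' → ℝ} {K' : Finset κ'}
variable {q r q' r' : ι → ℝ}

/-- the functional `v ↦ (∑_s v_a²) / N` -/
noncomputable def qs {A : Type} (s : Finset A) (N : ℝ) (v : A → ℝ) : ℝ := (∑ a ∈ s, v a ^ 2) / N

/-- the functional `v ↦ 1{L ≤ (∑_s v_a²) / N}` -/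
noncomputable def bs {A : Type} (s : Finset A) (N L : ℝ) (v : A → ℝ) : ℝ :=
  if L ≤ qs s N v then 1 else 0

lemma meas_qs {A : Type} [Fintype A] (s : Finset A) (N : ℝ) : Measurable (qs s N) := by
  unfold qs
  fun_prop

lemma meas_bs {A : Type} [Fintype A] (s : Finset A) (N L : ℝ) : Measurable (bs s N L) :=
  Measurable.ite (measurableSet_le measurable_const (meas_qs s N)) measurable_const
    measurable_const

lemma abs_bs {A : Type} (s : Finset A) (N L : ℝ) (v : A → ℝ) : |bs s N L v| ≤ 1 := by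
  unfold bs
  split_ifs <;> norm_num

lemma qs_nonneg {A : Type} (s : Finset A) {N : ℝ} (hN : 0 ≤ N) (v : A → ℝ) : 0 ≤ qs s N v :=
  div_nonneg (Finset.sum_nonneg fun _ _ => sq_nonneg _) hN

lemma qs_bd {A : Type} [Fintype A] (s : Finset A) (N : ℝ) (k : ℕ) :
    ∀ C, ∃ C', ∀ v : A → ℝ, (∀ a, |v a| ≤ C) → |qs s N v ^ k| ≤ C' := by
  intro C
  refine ⟨((∑ _a ∈ s, C ^ 2) / |N|) ^ k, fun v hv => ?_⟩
  unfold qs
  rw [abs_pow, abs_div]
  refine pow_le_pow_left₀ (by positivity) ?_ k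
  refine div_le_div_of_nonneg_right ?_ (abs_nonneg _)
  rw [abs_of_nonneg (Finset.sum_nonneg fun _ _ => sq_nonneg _)]
  refine Finset.sum_le_sum fun a _ => ?_
  rw [← sq_abs]
  exact pow_le_pow_left₀ (abs_nonneg _) (hv a) 2

/-- **from the fine shares `q'` to the coarse shares `q`** -/
theorem coarse_ls (h : Ls p c K q r) (h' : Ls p' c' K' q' r') (hq : ∀ e, q e ≤ q' e)
    (ht : ∀ e, q e + r e = q' e + r' e) {W : (ι → ℝ) → ℝ} (hW : EG W) (hpos : ∀ y, 0 < W y)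
    {A : Type} [Fintype A] {s s' : Finset A} (hs : s ⊆ s') {φ : A → (ι → ℝ) → ℝ}
    (hφ : ∀ a, BM (φ a)) {N L : ℝ} (hN : 0 < N) (hL : 0 ≤ L) :
    (L * ex (g1 κ) (fun z => W (lf p c z)) (fun z => bs s N (2 * L) fun a =>
        cx (g1 κ) K (fun z => W (lf p c z)) (fun z => φ a (lf p c z)) z)) ^ 2 ≤
      ex (g1 κ') (fun z => W (lf p' c' z)) (fun z => qs s' N (fun a =>
        cx (g1 κ') K' (fun z => W (lf p' c' z)) (fun z => φ a (lf p' c' z)) z) ^ 2) *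
      ex (g1 κ') (fun z => W (lf p' c' z)) (fun z => bs s' N L fun a =>
        cx (g1 κ') K' (fun z => W (lf p' c' z)) (fun z => φ a (lf p' c' z)) z) := by
  have hb : ∀ e, 0 ≤ q' e - q e := fun e => sub_nonneg.2 (hq e)
  have a1 : Ls (p3 ι) (c3 q (fun e => q' e - q e) r') (K3a ι) q r := by
    have := ls3a h.q0 hb h'.r0
    have e1 : (fun e => q' e - q e + r' e) = r := funext fun e => by linarith [ht e]
    rwa [e1] at this
  have a2 : Ls (p3 ι) (c3 q (fun e => q' e - q e) r') (K3b ι) q' r' := by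
    have := ls3b h.q0 hb h'.r0
    have e1 : (fun e => q e + (q' e - q e)) = q' := funext fun e => by ring
    rwa [e1] at this
  rw [ex_congr h a1 hW hpos hφ (Φ := bs s N (2 * L)) (meas_bs s N (2 * L))
      fun _ => ⟨1, fun v _ => abs_bs s N _ v⟩,
    ← ex_congr a2 h' hW hpos hφ (Φ := fun v => qs s' N v ^ 2) ((meas_qs s' N).pow_const 2)
      (qs_bd s' N 2),
    ← ex_congr a2 h' hW hpos hφ (Φ := bs s' N L) (meas_bs s' N L)
      fun _ => ⟨1, fun v _ => abs_bs s' N L v⟩]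
  set w : (ι ⊕ ι ⊕ ι → ℝ) → ℝ :=
    fun z => W (lf (p3 ι) (c3 q (fun e => q' e - q e) r') z) with hwd
  have hw : Wt (g1 (ι ⊕ ι ⊕ ι)) w := wt_lv hW hpos _ _
  set X : A → (ι ⊕ ι ⊕ ι → ℝ) → ℝ :=
    fun a z => φ a (lf (p3 ι) (c3 q (fun e => q' e - q e) r') z) with hXd
  have hX : ∀ a, BM (X a) := fun a => bm_lv (hφ a) _ _
  have hbq : ∀ (K : Finset (ι ⊕ ι ⊕ ι)) (s : Finset A),
      BM fun z => qs s N fun a => cx (g1 _) K w (X a) z := by
    intro K s
    have h1 := bcm (1 / N) (bm_s2 hw s (fun a _ => hX a) K)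
    have e1 : (fun z => 1 / N * ∑ a ∈ s, cx (g1 (ι ⊕ ι ⊕ ι)) K w (X a) z ^ 2) =
        fun z => qs s N fun a => cx (g1 _) K w (X a) z := by
      funext z
      unfold qs
      ring
    rwa [e1] at h1
  refine coarse_one (K := K3a ι) (Q2 := fun z => qs s' N fun a => cx (g1 _) (K3b ι) w (X a) z)
    (Q3 := fun z => qs s N fun a => cx (g1 _) (K3a ι) w (X a) z) hw (hbq _ _) (hbq _ _) ?_ ?_
    (fun z => qs_nonneg _ hN.le _) hL
  · intro z z'
    show qs s N _ = qs s N _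
    congr 1
    funext a
    exact dep_cx (μ := g1 _) (K3a ι) z z'
  · intro z
    have e1 : cx (g1 _) (K3a ι) w (fun z => qs s' N fun a => cx (g1 _) (K3b ι) w (X a) z) z =
        cx (g1 _) (K3a ι) w (fun z => ∑ a ∈ s', cx (g1 _) (K3b ι) w (X a) z ^ 2) z / N := by
      have h1 := cx_const_mul hw (K := K3a ι)
        (Ψ := fun z => ∑ a ∈ s', cx (g1 _) (K3b ι) w (X a) z ^ 2) (1 / N) z
      rw [div_eq_mul_one_div, mul_comm, ← h1]
      congr 1
      funext z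
      unfold qs
      ring
    rw [e1]
    unfold qs
    refine div_le_div_of_nonneg_right ?_ hN.le
    exact (s2_sub hs _).trans (s2_le hw (K3_sub ι) s' (fun a _ => hX a) z)

end ls

/-! ### Gibbs systems with levels -/

section gibbs

variable {κ κ' ι : Type} [Fintype κ] [DecidableEq κ] [Fintype κ'] [DecidableEq κ']
  [Fintype ι] [DecidableEq ι]
variable {Ω : Type} [MeasurableSpace Ω] {μ : Measure Ω} {M0 x : ℝ} {S : ι → Ω → ℝ}
variable {S1 : κ → Ω → ℝ} {p : κ → ι} {c : κ → ℝ} {K : Finset κ}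
variable {S2 : κ' → Ω → ℝ} {p' : κ' → ι} {c' : κ' → ℝ} {K' : Finset κ'}
variable {q r q' r' : ι → ℝ} {A : Type} [Fintype A] {f : A → Ω → ℝ}

/-- **coarser shares** for Gibbs systems with levels -/
theorem coarse_gibbs (hG : GM μ S M0) (h1 : Lvl p c S S1) (h2 : Lvl p' c' S S2)
    (h : Ls p c K q r) (h' : Ls p' c' K' q' r') (hq : ∀ e, q e ≤ q' e)
    (ht : ∀ e, q e + r e = q' e + r' e) (x : ℝ) {s s' : Finset A} (hs : s ⊆ s')
    (hf : ∀ a, Bm (f a)) {N L : ℝ} (hN : 0 < N) (hL : 0 ≤ L) :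
    (L * eg μ S1 x (fun z => bs s N (2 * L) fun a => cg μ S1 x K (f a) z)) ^ 2 ≤
      eg μ S2 x (fun z => qs s' N (fun a => cg μ S2 x K' (f a) z) ^ 2) *
      eg μ S2 x (fun z => bs s' N L fun a => cg μ S2 x K' (f a) z) := by
  rw [eg_lv h1, eg_lv h2, eg_lv h2]
  simp only [cg_lv h1, cg_lv h2]
  exact coarse_ls h h' hq ht (eg_Zx hG 1 x) (Zxm_pos x) hs (fun a => H347.bm hG 1 (hf a)) hN hL

end gibbs

/-! ### literal coordinates -/

section sk

open Vale.Agent.P146.H347 Vale.Agent.P146.H816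

variable {n : ℕ} {LB LF LB' LF' : Type} [Fintype LB] [DecidableEq LB] [Fintype LF]
  [DecidableEq LF] [Fintype LB'] [DecidableEq LB'] [Fintype LF'] [DecidableEq LF']
variable {b s η CB CF : ℝ} {cB : LB → ℝ} {cF : LF → ℝ} {cB' : LB' → ℝ} {cF' : LF' → ℝ}
variable {S S' : Finset (Fin n)} {BL : Finset LB} {FL : Finset LF} {BL' : Finset LB'}
  {FL' : Finset LF'} {t u t' u' M0 : ℝ} {μ : Measure (ℝ × Xs n)}
variable {A : Type} [Fintype A] {f : A → ℝ × Xs n → ℝ}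

/-- **coarser shares** in the literal coordinates -/
theorem coarse_sk (hG : GM μ (Sb n b CB CF s η) M0) (hB : 0 < CB) (hF : 0 < CF)
    (hs : Sh cB cF BL FL CB CF t u) (hs' : Sh cB' cF' BL' FL' CB CF t' u') (hS : S ⊆ S')
    (ht : t ≤ t') (hu : u ≤ u') (x : ℝ) {r r' : Finset A} (hr : r ⊆ r')
    (hf : ∀ a, Bm (f a)) {N L : ℝ} (hN : 0 < N) (hL : 0 ≤ L) :
    (L * eg μ (Sm b cB cF s η) x (fun z => bs r N (2 * L)
        fun a => cg μ (Sm b cB cF s η) x (Kset S BL FL) (f a) z)) ^ 2 ≤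
      eg μ (Sm b cB' cF' s η) x (fun z => qs r' N
        (fun a => cg μ (Sm b cB' cF' s η) x (Kset S' BL' FL') (f a) z) ^ 2) *
      eg μ (Sm b cB' cF' s η) x (fun z => bs r' N L
        fun a => cg μ (Sm b cB' cF' s η) x (Kset S' BL' FL') (f a) z) :=
  coarse_gibbs hG (lvl hB.ne' hF.ne') (lvl hB.ne' hF.ne') (ls_sh hB hF hs S) (ls_sh hB hF hs' S')
    (q0_mono hS (Sh.t0 hB hs') (Sh.u0 hF hs') ht hu) (fun e => by ring) x hr hf hN hL

end sk

end Vale.Agent.P146.H762
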