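import Mathlib

set_option linter.all false

/-!
# One-sided moments: two elementary bounds
-/

open MeasureTheory ProbabilityTheory Set Filter Topology

namespace Vale.Agent.P146.H762

variable {Ω : Type*} [MeasurableSpace Ω] {μ : Measure Ω} [IsProbabilityMeasure μ] {Y : Ω → ℝ}

lemma rpow_le_exp {t p : ℝ} (ht : 0 ≤ t) (hp : 0 < p) : t ^ p ≤ p ^ p * Real.exp t := by
  have h1 : t ≤ p * Real.exp (t / p) := by
    have h2 : t / p + 1 ≤ Real.exp (t / p) := Real.add_one_le_exp _
    have h3 : t / p ≤ Real.exp (t / p) := by linarith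
    calc t = p * (t / p) := by field_simp
      _ ≤ p * Real.exp (t / p) := mul_le_mul_of_nonneg_left h3 hp.le
  calc t ^ p ≤ (p * Real.exp (t / p)) ^ p := Real.rpow_le_rpow ht h1 hp.le
    _ = p ^ p * Real.exp t := by
        rw [Real.mul_rpow hp.le (Real.exp_pos _).le, ← Real.exp_mul]
        congr 2
        field_simp

/-- The positive part raised to the power `p`. -/
lemma pos_upper (hY : Measurable Y) {x p B : ℝ} (hx : 0 < x) (hp : 0 < p)
    (hi : Integrable (fun g => Real.exp (x * Y g)) μ)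
    (hB : ∫ g, Real.exp (x * Y g) ∂μ ≤ B) :
    Integrable (fun g => (max (Y g) 0) ^ p) μ ∧
      ∫ g, (max (Y g) 0) ^ p ∂μ ≤ (B + 1) * p ^ p * x⁻¹ ^ p := by
  have h3 : 0 ≤ x⁻¹ ^ p := Real.rpow_nonneg (inv_pos.2 hx).le _
  have h4 : 0 ≤ p ^ p := Real.rpow_nonneg hp.le _
  have hpt : ∀ g, (max (Y g) 0) ^ p ≤ p ^ p * x⁻¹ ^ p * (Real.exp (x * Y g) + 1) := fun g => by
    have h1 : (max (Y g) 0) ^ p = x⁻¹ ^ p * (x * max (Y g) 0) ^ p := by
      rw [← Real.mul_rpow (inv_pos.2 hx).le (by positivity)]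
      congr 1
      field_simp
    have h2 := rpow_le_exp (t := x * max (Y g) 0) (by positivity) hp
    have h5 : Real.exp (x * max (Y g) 0) ≤ Real.exp (x * Y g) + 1 := by
      rcases le_total (Y g) 0 with h | h
      · rw [max_eq_right h, mul_zero, Real.exp_zero]
        linarith [Real.exp_pos (x * Y g)]
      · rw [max_eq_left h]
        linarith
    calc (max (Y g) 0) ^ p = x⁻¹ ^ p * (x * max (Y g) 0) ^ p := h1
      _ ≤ x⁻¹ ^ p * (p ^ p * Real.exp (x * max (Y g) 0)) := mul_le_mul_of_nonneg_left h2 h3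
      _ ≤ x⁻¹ ^ p * (p ^ p * (Real.exp (x * Y g) + 1)) := by gcongr
      _ = _ := by ring
  have hm : Measurable fun g => (max (Y g) 0) ^ p := (hY.max measurable_const).pow_const p
  have hi1 : Integrable (fun g => p ^ p * x⁻¹ ^ p * (Real.exp (x * Y g) + 1)) μ :=
    (hi.add (integrable_const 1)).const_mul _
  have hI : Integrable (fun g => (max (Y g) 0) ^ p) μ := by
    refine hi1.mono' hm.aestronglyMeasurable (Eventually.of_forall fun g => ?_)
    rw [Real.norm_of_nonneg (Real.rpow_nonneg (le_max_right _ _) _)]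
    exact hpt g
  refine ⟨hI, (integral_mono hI hi1 hpt).trans ?_⟩
  rw [integral_const_mul, integral_add hi (integrable_const 1), integral_const, smul_eq_mul,
    probReal_univ, one_mul]
  calc p ^ p * x⁻¹ ^ p * (∫ g, Real.exp (x * Y g) ∂μ + 1) ≤ p ^ p * x⁻¹ ^ p * (B + 1) :=
        mul_le_mul_of_nonneg_left (by linarith) (mul_nonneg h4 h3)
    _ = _ := by ring

lemma pos_lower (hY : Measurable Y) {a p : ℝ} (ha : 0 < a) (hp : 0 < p)
    (hI : Integrable (fun g => (max (Y g) 0) ^ p) μ) :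
    a ^ p * μ.real {g | a ≤ Y g} ≤ ∫ g, (max (Y g) 0) ^ p ∂μ := by
  have hs : MeasurableSet {g | a ≤ Y g} := measurableSet_le measurable_const hY
  have h1 : ∫ g, ({g | a ≤ Y g}.indicator (fun _ => a ^ p)) g ∂μ =
      a ^ p * μ.real {g | a ≤ Y g} := by
    rw [integral_indicator hs, setIntegral_const, smul_eq_mul, mul_comm]
  rw [← h1]
  refine integral_mono ((integrable_const _).indicator hs) hI fun g => ?_
  by_cases h : a ≤ Y g
  · have h2 : g ∈ {g | a ≤ Y g} := h
    rw [indicator_of_mem h2]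
    exact Real.rpow_le_rpow ha.le (h.trans (le_max_left _ _)) hp.le
  · have h2 : g ∉ {g | a ≤ Y g} := h
    rw [indicator_of_notMem h2]
    exact Real.rpow_nonneg (le_max_right _ _) _

end Vale.Agent.P146.H762
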