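import Vale.Agent.P146.H260.FOutK

set_option linter.all false

/-!
# The exponential moments of a convex function above the Gaussian ones
-/

open MeasureTheory ProbabilityTheory

namespace Vale.Agent.P146.H762

open Vale.Agent.P157.Lv Vale.Agent.P146.H425 Vale.Agent.P146.H260.V13

variable {κ : Type} [Fintype κ] {F : (κ → ℝ) → ℝ} {D : κ → (κ → ℝ) → ℝ} {B L x : ℝ}

/-- **The exponential moments above the mean dominate the Gaussian ones.** -/
theorem mgf_low (h : C11 F D B L) (hc : Cv F) (hx : 0 ≤ x) :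
    Real.exp (x ^ 2 / 2 * ∫ z, (F z - ∫ z', F z' ∂(gI κ)) ^ 2 ∂(gI κ)) ≤
      ∫ z, Real.exp (x * (F z - ∫ z', F z' ∂(gI κ))) ∂(gI κ) := by
  rcases hx.eq_or_lt with rfl | hx
  · simp
  set E := ∫ z', F z' ∂(gI κ) with hE
  set V := ∫ z, (F z - E) ^ 2 ∂(gI κ) with hV
  have hV0 : 0 ≤ V := integral_nonneg fun z => sq_nonneg _
  have hl := h.lip.lip h.B0
  have hY : Lip (fun z => F z - E) := by
    simpa [sub_eq_add_neg] using hl.add (Lip.const (-E))
  have hY0 : ∫ z, (F z - E) ∂(gI κ) = 0 := by
    rw [integral_sub hl.eg.integrable (integrable_const _), ← hE]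
    simp
  have hexp : ∀ b, ∫ z, Real.exp (b * F z) ∂(gI κ) =
      Real.exp (b * E) * ∫ z, Real.exp (b * (F z - E)) ∂(gI κ) := by
    intro b
    rw [← integral_const_mul]
    refine integral_congr_ae (Filter.Eventually.of_forall fun z => ?_)
    simp only
    rw [← Real.exp_add]
    congr 1
    ring
  have hpos : ∀ b, 0 < ∫ z, Real.exp (b * (F z - E)) ∂(gI κ) := fun b =>
    integral_exp_pos (hY.exp_eg b).integrable
  have hWe : ∀ b, 0 < b → W b 1 F 0 = E + 1 / b *
      Real.log (∫ z, Real.exp (b * (F z - E)) ∂(gI κ)) := by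
    intro b hb
    rw [W_one_zero, hexp, Real.log_mul (Real.exp_pos _).ne' (hpos b).ne', Real.log_exp]
    field_simp
  have hge : ∀ b, 1 ≤ ∫ z, Real.exp (b * (F z - E)) ∂(gI κ) := by
    intro b
    have i1 : Integrable (fun z => 1 + b * (F z - E)) (gI κ) :=
      (integrable_const 1).add (hY.eg.integrable.const_mul b)
    have h1 := integral_mono i1 (hY.exp_eg b).integrable fun z => by
      have := Real.add_one_le_exp (b * (F z - E))
      simp only
      linarith
    rw [integral_add (integrable_const 1) (hY.eg.integrable.const_mul b), integral_const_mul,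
      hY0] at h1
    simpa using h1
  have hWl : ∀ b, 0 < b → E ≤ W b 1 F 0 := by
    intro b hb
    rw [hWe b hb]
    have h1 := Real.log_nonneg (hge b)
    have h2 : 0 ≤ 1 / b * Real.log (∫ z, Real.exp (b * (F z - E)) ∂(gI κ)) := by positivity
    linarith
  have hW : E + x * V / 2 ≤ W x 1 F 0 := by
    refine le_of_forall_pos_le_add fun ε hε => ?_
    obtain ⟨b, hb⟩ : ∃ b, b = min x (2 * ε / (V + 1)) := ⟨_, rfl⟩
    have hb0 : 0 < b := by rw [hb]; exact lt_min hx (by positivity)
    have hb1 : b ≤ 2 * ε / (V + 1) := by rw [hb]; exact min_le_right _ _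
    have hbx : b ≤ x := by rw [hb]; exact min_le_left _ _
    have hb2 : b * (V + 1) ≤ 2 * ε := by rwa [le_div_iff₀ (by positivity)] at hb1
    have h1 := tangent h hc hb0 hx
    have h2 := hWl b hb0
    have h3 := var_le_KL h hc hb0
    rw [← hE, ← hV] at h3
    have h4 : V / 2 ≤ KL F b / b ^ 2 := by
      rw [le_div_iff₀ (by positivity)]
      linarith
    have h5 := mul_le_mul_of_nonneg_left h4 (show 0 ≤ x - b by linarith)
    nlinarith
  rw [hWe x hx] at hW
  have h6 : x ^ 2 / 2 * V ≤ Real.log (∫ z, Real.exp (x * (F z - E)) ∂(gI κ)) := by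
    have h7 : x * V / 2 ≤ 1 / x * Real.log (∫ z, Real.exp (x * (F z - E)) ∂(gI κ)) := by linarith
    have h8 := mul_le_mul_of_nonneg_left h7 hx.le
    have e : x * (1 / x * Real.log (∫ z, Real.exp (x * (F z - E)) ∂(gI κ))) =
        Real.log (∫ z, Real.exp (x * (F z - E)) ∂(gI κ)) := by field_simp
    rw [e] at h8
    linarith
  exact (Real.le_log_iff_exp_le (hpos x)).1 h6

end Vale.Agent.P146.H762
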