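import Vale.Agent.P146.H762.SkewA
import Vale.Agent.P146.H762.SkewB
import Vale.Agent.P146.H946.SkI
import Vale.Agent.P146.H605.Noise
import Vale.Agent.P146.R2.H453.Lo2
import Vale.Agent.P146.H655.Low
import Vale.Agent.P146.H863.GumLC

set_option linter.all false

/-!
# P146: the free energy against the Gaussian law with the same variance

For `x ≥ 0`: `E exp (-x (F - E F)) ≤ exp (x² Var F / 2) ≤ E exp (x (F - E F))`, and
`E (F - E F)³ ≥ 0`.
-/

open MeasureTheory ProbabilityTheory Set Filter Topology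

namespace Vale.Agent.P146.H762

open Vale.Agent.P146 Vale.Agent.P146.H605 Vale.Agent.P146.H332 Vale.Agent.P146.H325

/-- The Laplace transform on the left is below the Gaussian one. -/
theorem lap_left {n : ℕ} (hn : 1 ≤ n) (β : ℝ) {x : ℝ} (hx : 0 ≤ x) :
    ∫ g, Real.exp (-(x * (freeEnergy n β g - ∫ h, freeEnergy n β h ∂(disorder n))))
      ∂(disorder n) ≤ Real.exp (x ^ 2 / 2 * Var[freeEnergy n β; disorder n]) := by
  have h1 := R2.H453.Lo.sk_LB β hn zero_le_one le_rfl hx
  rw [crossCov_one n β hn] at h1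
  refine h1.trans (le_of_eq ?_)
  congr 1
  ring

/-- The Laplace transform on the right is above the Gaussian one. -/
theorem lap_right (n : ℕ) (β : ℝ) {x : ℝ} (hx : 0 ≤ x) :
    Real.exp (x ^ 2 / 2 * Var[freeEnergy n β; disorder n]) ≤
      ∫ g, Real.exp (x * (freeEnergy n β g - ∫ h, freeEnergy n β h ∂(disorder n)))
        ∂(disorder n) := by
  have hd : disorder n = Vale.Agent.P157.Lv.gI (Pair n) := rfl
  have hf : freeEnergy n β = H332.lz (β / √n) (SkS (n := n)) := by
    funext g
    exact H332.freeEnergy_eq β g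
  have h1 := mgf_low (x := x) (H332.c11_lz (β / √n) (SkS (n := n))) (H332.cv_lz _ _) hx
  rw [H946.sk_var' n β, hd, hf]
  exact h1

/-- all polynomial moments of the centred free energy are finite -/
lemma int_pow (n : ℕ) (β : ℝ) {k : ℕ} (hk : 0 < k) :
    Integrable (fun g => (freeEnergy n β g - ∫ h, freeEnergy n β h ∂(disorder n)) ^ k)
      (disorder n) := by
  obtain ⟨m, hm⟩ : ∃ m, m = ∫ h, freeEnergy n β h ∂(disorder n) := ⟨_, rfl⟩
  rw [← hm]
  obtain ⟨x, hx⟩ : ∃ x, x = (18 * (1 + √Var[freeEnergy n β; disorder n]))⁻¹ := ⟨_, rfl⟩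
  have hs0 : 0 < 18 * (1 + √Var[freeEnergy n β; disorder n]) := by positivity
  have hx0 : 0 < x := by rw [hx]; positivity
  have hx1 : x * (18 * (1 + √Var[freeEnergy n β; disorder n])) ≤ 1 := by
    rw [hx, inv_mul_cancel₀ hs0.ne']
  obtain ⟨i1, -⟩ := H641.exp_moment n β hx0.le (show x * (18 * H641.sd1 n β) ≤ 1 from hx1)
  obtain ⟨i2, -⟩ := H655.exp_moment_neg n β hx0.le hx1
  rw [← hm] at i2
  have i1' : Integrable (fun g => Real.exp (x * (freeEnergy n β g - m))) (disorder n) := by
    rw [hm]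
    exact i1
  have hM : Measurable (freeEnergy n β) := (H863.cont_freeEnergy n β).measurable
  have hpt : ∀ t : ℝ, |t ^ k| ≤ k.factorial * x⁻¹ ^ k * (Real.exp (x * t) + Real.exp (-(x * t))) := by
    intro t
    have h1 : |x * t| ^ k / k.factorial ≤ Real.exp |x * t| :=
      Real.pow_div_factorial_le_exp _ (abs_nonneg _) k
    have h2 : Real.exp |x * t| ≤ Real.exp (x * t) + Real.exp (-(x * t)) := by
      rcases abs_cases (x * t) with ⟨h, -⟩ | ⟨h, -⟩
      · rw [h]; linarith [Real.exp_pos (-(x * t))]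
      · rw [h]; linarith [Real.exp_pos (x * t)]
    have h3 : |t ^ k| = k.factorial * x⁻¹ ^ k * (|x * t| ^ k / k.factorial) := by
      rw [abs_pow, abs_mul, abs_of_pos hx0, mul_pow]
      have hf : (k.factorial : ℝ) ≠ 0 := by positivity
      have he : x⁻¹ ^ k * x ^ k = 1 := by
        rw [← mul_pow, inv_mul_cancel₀ hx0.ne', one_pow]
      rw [mul_div_assoc', eq_div_iff hf]
      linear_combination (-(k.factorial : ℝ) * |t| ^ k) * he
    rw [h3]
    exact mul_le_mul_of_nonneg_left (h1.trans h2) (by positivity)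
  have hi := (i1'.add i2).const_mul (k.factorial * x⁻¹ ^ k)
  refine hi.mono' ((hM.sub_const m).pow_const k).aestronglyMeasurable
    (Eventually.of_forall fun g => ?_)
  rw [Real.norm_eq_abs]
  exact hpt _

/-- **The third central moment of the free energy is nonnegative.** -/
theorem skew_nonneg {n : ℕ} (hn : 1 ≤ n) (β : ℝ) :
    0 ≤ ∫ g, (freeEnergy n β g - ∫ h, freeEnergy n β h ∂(disorder n)) ^ 3 ∂(disorder n) := by
  obtain ⟨m, hm⟩ : ∃ m, m = ∫ h, freeEnergy n β h ∂(disorder n) := ⟨_, rfl⟩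
  have i3 := int_pow n β (k := 3) (by norm_num)
  have i2 := int_pow n β (k := 2) (by norm_num)
  have i1 := int_pow n β (k := 1) (by norm_num)
  simp only [pow_one] at i1
  have hM : Measurable (freeEnergy n β) := (H863.cont_freeEnergy n β).measurable
  have hI : Integrable (freeEnergy n β) (disorder n) :=
    (H641.memLp_freeEnergy n β).integrable (by norm_num)
  have hv : ∫ g, (freeEnergy n β g - ∫ h, freeEnergy n β h ∂(disorder n)) ^ 2 ∂(disorder n) =
      Var[freeEnergy n β; disorder n] := by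
    rw [variance_eq_integral hM.aemeasurable]
  have h0 : ∫ g, (freeEnergy n β g - ∫ h, freeEnergy n β h ∂(disorder n)) ∂(disorder n) = 0 := by
    rw [integral_sub hI (integrable_const _), integral_const, smul_eq_mul, probReal_univ, one_mul,
      sub_self]
  obtain ⟨x, hx⟩ : ∃ x, x = (18 * (1 + √Var[freeEnergy n β; disorder n]))⁻¹ := ⟨_, rfl⟩
  have hs0 : 0 < 18 * (1 + √Var[freeEnergy n β; disorder n]) := by positivity
  have hx0 : 0 < x := by rw [hx]; positivity
  have hx1 : x * (18 * (1 + √Var[freeEnergy n β; disorder n])) ≤ 1 := by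
    rw [hx, inv_mul_cancel₀ hs0.ne']
  refine skew_of i1 i2 i3 h0 hv hx0 (fun y hy hyx => ?_) fun y hy _ => lap_left hn β hy.le
  exact (H655.exp_moment_neg n β hy.le
    ((mul_le_mul_of_nonneg_right hyx hs0.le).trans hx1)).1

end Vale.Agent.P146.H762
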