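import Mathlib

set_option linter.all false

/-!
# The third moment from the Laplace transform on one side
-/

open MeasureTheory ProbabilityTheory Set Filter Topology

namespace Vale.Agent.P146.H762

lemma cubic_le_exp_neg {s : ℝ} (hs : 0 ≤ s) : 1 - s + s ^ 2 / 2 - s ^ 3 / 6 ≤ Real.exp (-s) := by
  obtain ⟨g, hg⟩ : ∃ g : ℝ → ℝ, g = fun s => Real.exp s * (1 - s + s ^ 2 / 2 - s ^ 3 / 6) := ⟨_, rfl⟩
  have hd : ∀ s, HasDerivAt g (Real.exp s * (-(s ^ 3 / 6))) s := by
    intro s
    rw [hg]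
    have h1 : HasDerivAt (fun s : ℝ => 1 - s + s ^ 2 / 2 - s ^ 3 / 6)
        (-1 + s - s ^ 2 / 2) s := by
      have h2 := (((hasDerivAt_const s (1 : ℝ)).sub (hasDerivAt_id s)).add
        ((hasDerivAt_pow 2 s).div_const 2)).sub ((hasDerivAt_pow 3 s).div_const 6)
      refine (h2.congr_deriv ?_).congr_of_eventuallyEq ?_
      · norm_num
        ring
      · exact Eventually.of_forall fun _ => rfl
    refine ((Real.hasDerivAt_exp s).mul h1).congr_deriv ?_
    ring
  have hanti : AntitoneOn g (Ici 0) := by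
    refine antitoneOn_of_deriv_nonpos (convex_Ici 0)
      (fun s _ => (hd s).continuousAt.continuousWithinAt)
      (fun s _ => (hd s).differentiableAt.differentiableWithinAt) fun s hs => ?_
    rw [interior_Ici] at hs
    rw [(hd s).deriv]
    have h3 : 0 < s ^ 3 / 6 := by have : (0 : ℝ) < s := hs; positivity
    have h4 := Real.exp_pos s
    nlinarith
  have h5 := hanti (mem_Ici.2 le_rfl) (mem_Ici.2 hs) hs
  rw [hg] at h5
  simp only at h5
  have h6 : Real.exp 0 * (1 - (0 : ℝ) + 0 ^ 2 / 2 - 0 ^ 3 / 6) = 1 := by simp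
  rw [h6] at h5
  have h7 := mul_le_mul_of_nonneg_left h5 (Real.exp_pos (-s)).le
  rw [← mul_assoc, ← Real.exp_add, neg_add_cancel, Real.exp_zero, one_mul, mul_one] at h7
  exact h7

lemma cubic_le_exp (t : ℝ) : 1 + t + t ^ 2 / 2 + t ^ 3 / 6 ≤ Real.exp t := by
  rcases le_total 0 t with h | h
  · have h1 := Real.sum_le_exp_of_nonneg h 4
    simp only [Finset.sum_range_succ, Finset.sum_range_zero, Nat.factorial] at h1
    norm_num at h1
    linarith
  · have h1 := cubic_le_exp_neg (s := -t) (by linarith)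
    rw [neg_neg] at h1
    nlinarith

variable {Ω : Type*} [MeasurableSpace Ω] {μ : Measure Ω} [IsProbabilityMeasure μ] {X : Ω → ℝ}

/-- **A centred variable whose Laplace transform on the left is below the Gaussian one has a
nonnegative third moment.** -/
theorem skew_of {v x0 : ℝ} (h1 : Integrable X μ) (h2 : Integrable (fun g => X g ^ 2) μ)
    (h3 : Integrable (fun g => X g ^ 3) μ) (hm : ∫ g, X g ∂μ = 0)
    (hv : ∫ g, X g ^ 2 ∂μ = v) (hx0 : 0 < x0)
    (hi : ∀ x, 0 < x → x ≤ x0 → Integrable (fun g => Real.exp (-(x * X g))) μ)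
    (hL : ∀ x, 0 < x → x ≤ x0 → ∫ g, Real.exp (-(x * X g)) ∂μ ≤ Real.exp (x ^ 2 / 2 * v)) :
    0 ≤ ∫ g, X g ^ 3 ∂μ := by
  obtain ⟨m, hm3⟩ : ∃ m, m = ∫ g, X g ^ 3 ∂μ := ⟨_, rfl⟩
  rw [← hm3]
  have hv0 : 0 ≤ v := by rw [← hv]; exact integral_nonneg fun g => sq_nonneg _
  have key : ∀ x, 0 < x → x ≤ x0 → x ^ 2 / 2 * v ≤ 1 → -m ≤ 3 / 2 * v ^ 2 * x := by
    intro x hx hxx hx1
    have e1 : ∀ g, 1 + -(x * X g) + (-(x * X g)) ^ 2 / 2 + (-(x * X g)) ^ 3 / 6 ≤
        Real.exp (-(x * X g)) := fun g => cubic_le_exp _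
    have i0 : Integrable (fun g => -(x * X g)) μ := (h1.const_mul x).neg
    have i1 : Integrable (fun g => 1 + -(x * X g)) μ := (integrable_const 1).add i0
    have i2 : Integrable (fun g => (-(x * X g)) ^ 2 / 2) μ := by
      refine (h2.const_mul (x ^ 2 / 2)).congr (Eventually.of_forall fun g => ?_)
      simp only
      ring
    have i3 : Integrable (fun g => (-(x * X g)) ^ 3 / 6) μ := by
      refine (h3.const_mul (-(x ^ 3 / 6))).congr (Eventually.of_forall fun g => ?_)
      simp only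
      ring
    have i4 : Integrable (fun g => 1 + -(x * X g) + (-(x * X g)) ^ 2 / 2) μ := i1.add i2
    have e2 : ∫ g, (1 + -(x * X g) + (-(x * X g)) ^ 2 / 2 + (-(x * X g)) ^ 3 / 6) ∂μ =
        1 + x ^ 2 / 2 * v - x ^ 3 / 6 * m := by
      rw [integral_add i4 i3, integral_add i1 i2, integral_add (integrable_const 1) i0]
      have a1 : ∫ g, -(x * X g) ∂μ = 0 := by
        rw [integral_neg, integral_const_mul, hm, mul_zero, neg_zero]
      have a2 : ∫ g, (-(x * X g)) ^ 2 / 2 ∂μ = x ^ 2 / 2 * v := by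
        rw [← hv, ← integral_const_mul]
        refine integral_congr_ae (Eventually.of_forall fun g => ?_)
        simp only
        ring
      have a3 : ∫ g, (-(x * X g)) ^ 3 / 6 ∂μ = -(x ^ 3 / 6 * m) := by
        rw [hm3, ← integral_const_mul, ← integral_neg]
        refine integral_congr_ae (Eventually.of_forall fun g => ?_)
        simp only
        ring
      rw [a1, a2, a3, integral_const, smul_eq_mul, probReal_univ]
      ring
    have e3 := integral_mono (i4.add i3) (hi x hx hxx) e1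
    simp only [Pi.add_apply] at e3
    rw [e2] at e3
    have e4 := hL x hx hxx
    have ht0 : 0 ≤ x ^ 2 / 2 * v := by positivity
    have e5 := Real.abs_exp_sub_one_sub_id_le (x := x ^ 2 / 2 * v) (by rw [abs_of_nonneg ht0]; exact hx1)
    have e6 := (abs_le.1 e5).2
    have e7 : -(x ^ 3 / 6 * m) ≤ (x ^ 2 / 2 * v) ^ 2 := by linarith
    have hx3 : 0 < x ^ 3 / 6 := by positivity
    have e8 : x ^ 3 / 6 * -m ≤ x ^ 3 / 6 * (3 / 2 * v ^ 2 * x) := by nlinarith
    exact le_of_mul_le_mul_left e8 hx3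
  by_contra hneg
  push Not at hneg
  obtain ⟨x1, hx1⟩ : ∃ x1, x1 = min x0 (min 1 (min (1 / (v + 1)) (-m / (3 * (v ^ 2 + 1))))) :=
    ⟨_, rfl⟩
  have hp : 0 < -m / (3 * (v ^ 2 + 1)) := by
    have : 0 < -m := by linarith
    positivity
  have p0 : 0 < x1 := by
    rw [hx1]
    exact lt_min hx0 (lt_min one_pos (lt_min (by positivity) hp))
  have p1 : x1 ≤ x0 := by rw [hx1]; exact min_le_left _ _
  have p2 : x1 ≤ 1 := by
    rw [hx1]; exact (min_le_right _ _).trans (min_le_left _ _)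
  have p3 : x1 ≤ 1 / (v + 1) := by
    rw [hx1]
    exact (min_le_right _ _).trans ((min_le_right _ _).trans (min_le_left _ _))
  have p4 : x1 ≤ -m / (3 * (v ^ 2 + 1)) := by
    rw [hx1]
    exact (min_le_right _ _).trans ((min_le_right _ _).trans (min_le_right _ _))
  have q3 : x1 * (v + 1) ≤ 1 := by rwa [le_div_iff₀ (by positivity)] at p3
  have q4 : x1 * (3 * (v ^ 2 + 1)) ≤ -m := by rwa [le_div_iff₀ (by positivity)] at p4
  have h5 := key x1 p0 p1 (by nlinarith)
  nlinarith [mul_pos p0 (show (0 : ℝ) < 1 by norm_num), mul_nonneg p0.le (sq_nonneg v)]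

end Vale.Agent.P146.H762
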