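import Vale.Agent.P146.H695.Lim
import Vale.Agent.P146.H762.SkewD

set_option linter.all false

/-!
# P146: the limit laws of the normalised fluctuations, compared with the Gaussian law
-/

open MeasureTheory ProbabilityTheory Set Filter Topology

namespace Vale.Agent.P146.H762

open Vale.Agent.P146 Vale.Agent.P146.H605

/-- **The limit laws**, for a sequence of sizes along which the variance tends to infinity. -/
theorem limit_skew_of {β : ℝ} {N : ℕ → ℕ}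
    (hV : Tendsto (fun k => Var[freeEnergy (N k) β; disorder (N k)]) atTop atTop) :
    ∃ (φ : ℕ → ℕ) (p : ℝ → ℝ), StrictMono φ ∧ (∀ x, 0 ≤ p x ∧ p x ≤ 145) ∧
      (∀ s t : ℝ, 0 < s → 0 < t → s + t = 1 → ∀ x y : ℝ,
        p x ^ s * p y ^ t ≤ p (s * x + t * y)) ∧
      ∫ x, p x = 1 ∧ ∫ x, x * p x = 0 ∧ ∫ x, x ^ 2 * p x = 1 ∧
      (∀ x : ℝ, 0 ≤ x → Integrable (fun t => Real.exp (-(x * t)) * p t) ∧
        ∫ t, Real.exp (-(x * t)) * p t ≤ Real.exp (x ^ 2 / 2)) ∧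
      (∀ x : ℝ, 0 ≤ x → x < 1 / 36 → Integrable (fun t => Real.exp (x * t) * p t) ∧
        Real.exp (x ^ 2 / 2) ≤ ∫ t, Real.exp (x * t) * p t ∧
        ∫ t, Real.exp (x * t) * p t ≤ 7 / 2) ∧
      (Integrable (fun t => t ^ 3 * p t) ∧ 0 ≤ ∫ t, t ^ 3 * p t) ∧
      ∀ f : ℝ → ℝ, Continuous f → (∃ C, ∀ x, |f x| ≤ C) →
        Tendsto (fun k => ∫ g, f ((freeEnergy (N (φ k)) β g -
          ∫ h, freeEnergy (N (φ k)) β h ∂(disorder (N (φ k)))) /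
            √Var[freeEnergy (N (φ k)) β; disorder (N (φ k))]) ∂(disorder (N (φ k))))
          atTop (𝓝 (∫ x, f x * p x)) := by
  obtain ⟨φ, p, h1, h2, h3, h4, h5, h6, h7⟩ := H695.limit_law hV
  obtain ⟨g1, g2, g3, g4⟩ := post_lim (M := fun k => N (φ k))
    (Real.tendsto_sqrt_atTop.comp (hV.comp h1.tendsto_atTop)) (fun x => (h2 x).1) h4 h5 h6 h7
  exact ⟨φ, p, h1, h2, h3, h4, h5, h6, g1, g2, ⟨g3, g4⟩, h7⟩

/-- **The limit laws below the critical temperature.** -/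
theorem limit_skew {β : ℝ} (hβ : 1 < β) {N : ℕ → ℕ} (hN : Tendsto N atTop atTop) :
    ∃ (φ : ℕ → ℕ) (p : ℝ → ℝ), StrictMono φ ∧ (∀ x, 0 ≤ p x ∧ p x ≤ 145) ∧
      (∀ s t : ℝ, 0 < s → 0 < t → s + t = 1 → ∀ x y : ℝ,
        p x ^ s * p y ^ t ≤ p (s * x + t * y)) ∧
      ∫ x, p x = 1 ∧ ∫ x, x * p x = 0 ∧ ∫ x, x ^ 2 * p x = 1 ∧
      (∀ x : ℝ, 0 ≤ x → Integrable (fun t => Real.exp (-(x * t)) * p t) ∧
        ∫ t, Real.exp (-(x * t)) * p t ≤ Real.exp (x ^ 2 / 2)) ∧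
      (∀ x : ℝ, 0 ≤ x → x < 1 / 36 → Integrable (fun t => Real.exp (x * t) * p t) ∧
        Real.exp (x ^ 2 / 2) ≤ ∫ t, Real.exp (x * t) * p t ∧
        ∫ t, Real.exp (x * t) * p t ≤ 7 / 2) ∧
      (Integrable (fun t => t ^ 3 * p t) ∧ 0 ≤ ∫ t, t ^ 3 * p t) ∧
      ∀ f : ℝ → ℝ, Continuous f → (∃ C, ∀ x, |f x| ≤ C) →
        Tendsto (fun k => ∫ g, f ((freeEnergy (N (φ k)) β g -
          ∫ h, freeEnergy (N (φ k)) β h ∂(disorder (N (φ k)))) /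
            √Var[freeEnergy (N (φ k)) β; disorder (N (φ k))]) ∂(disorder (N (φ k))))
          atTop (𝓝 (∫ x, f x * p x)) := by
  refine limit_skew_of ?_
  have h1 := H425.LowA.var_low H641.flat' hβ (1 / 16) (by norm_num)
  have h2 : Tendsto (fun n : ℕ => (n : ℝ) ^ (1 / 16 : ℝ)) atTop atTop :=
    (tendsto_rpow_atTop (by norm_num)).comp tendsto_natCast_atTop_atTop
  have h3 : Tendsto (fun n : ℕ => Var[freeEnergy n β; disorder n]) atTop atTop :=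
    tendsto_atTop_mono' _ (h1.mono fun n hn => hn.1) h2
  exact h3.comp hN

end Vale.Agent.P146.H762
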